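import Vale.Agent.P287T.Ch.Den
import Mathlib.Topology.Baire.CompleteMetrizable

/-!
# Small moves of Hodge loci and very general points
-/

namespace Vale.Agent.P287T.Ch

open Set Filter Topology Module

variable {Λ : Type} [AddCommGroup Λ] {B : Λ →+ Λ →+ ℤ} {V : Type} [NormedAddCommGroup V]
  [NormedSpace ℝ V] [FiniteDimensional ℝ V] {b : V →ₗ[ℝ] V →ₗ[ℝ] ℝ} {ι : Λ →+ V} {l1 l2 : Λ}
  {T : Type} [TopologicalSpace T] {D O : Set T} {x y : T → V} {t : T} {m1 m2 ξ l : V}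

theorem Geo.stab (G : Geo b m1 m2 D x y) (_hs : ∀ z w, b z w = b w z) (ht : t ∈ D) (hO : O ∈ 𝓝 t)
    (h1 : b m1 ξ = 0) (h2 : b m2 ξ = 0) (hl : Hd b (x t) (y t) l) (hξ : b l ξ ≠ 0) :
    ∀ᶠ z in 𝓝 l, ∃ t' ∈ D ∩ O, Hd b (x t') (y t') z ∧
      ∀ g, b g ξ = 0 → Hd b (x t) (y t) g → Hd b (x t') (y t') g := by
  have c : ∀ v : V, Continuous fun z => b z v := fun v => cont_b₂ b continuous_id continuous_const
  have k : ∀ v : V, b l v = 0 → Tendsto (fun z => v - (b z v / b z ξ) • ξ) (𝓝 l) (𝓝 v) := by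
    intro v hv
    have : ContinuousAt (fun z => v - (b z v / b z ξ) • ξ) l :=
      continuousAt_const.sub (((c v).continuousAt.div (c ξ).continuousAt hξ).smul
        continuousAt_const)
    simpa [ContinuousAt, hv] using this
  filter_upwards [((k _ hl.1).prodMk_nhds (k _ hl.2)).eventually (G.mov t ht O hO),
    (c ξ).continuousAt.eventually_ne hξ] with z hz hz'
  have p : ∀ g, b g ξ = 0 → Hd b (x t) (y t) g →
      Hd b (x t - (b z (x t) / b z ξ) • ξ) (y t - (b z (y t) / b z ξ) • ξ) g :=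
    fun g a a' => ⟨by simp [a, a'.1], by simp [a, a'.2]⟩
  obtain ⟨t', h, e⟩ := hz (p _ h1 (G.h1 t ht)) (p _ h2 (G.h2 t ht))
  exact ⟨t', h, (e z).2 ⟨by simp [hz'], by simp [hz']⟩, fun g a a' => (e g).2 (p g a a')⟩

omit [FiniteDimensional ℝ V] in
theorem Vg_sat (L : Lat B l1 l2) (E : Emb B b ι) {o n g1 g2 w : Λ} (p1 : Pr B l1 l2 g1)
    (p2 : Pr B l1 l2 g2) (a1 : B g1 o = 1) (a2 : B g1 n = 0) (a3 : B g2 o = 0) (a4 : B g2 n = 1)
    (h : ∀ ξ, b (ι l1) ξ = 0 → b (ι l2) ξ = 0 → b (ι o) ξ = 0 → b (ι n) ξ = 0 → b (ι w) ξ = 0) :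
    ∃ r1 r2 j z : ℤ, w = r1 • l1 + r2 • l2 + j • o + z • n := by
  obtain ⟨u, hu⟩ : ∃ u, u = w - B g1 w • o - B g2 w • n := ⟨_, rfl⟩
  obtain ⟨u', hu'⟩ : ∃ u', u' = (3 : ℤ) • u - (2 * B l1 u + B l2 u) • l1 -
    (B l1 u + 2 * B l2 u) • l2 := ⟨_, rfl⟩
  have h21 : B l2 l1 = -1 := (L.symm _ _).trans L.h12
  have q1 : B l1 u' = 0 := by simp [hu', L.h11, L.h12]; ring
  have q2 : B l2 u' = 0 := by simp [hu', L.h22, h21]; ring
  have s1 : B g1 l1 = 0 := (L.symm _ _).trans p1.1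
  have s2 : B g1 l2 = 0 := (L.symm _ _).trans p1.2
  have s3 : B g2 l1 = 0 := (L.symm _ _).trans p2.1
  have s4 : B g2 l2 = 0 := (L.symm _ _).trans p2.2
  have q3 : B g1 u' = 0 := by simp [hu', hu, s1, s2, a1, a2]
  have q4 : B g2 u' = 0 := by simp [hu', hu, s3, s4, a3, a4]
  have z : u' = 0 := L.nd _ fun v => by
    obtain ⟨v', hv'⟩ : ∃ v', v' = (3 : ℤ) • v - (2 * B l1 v + B l2 v) • l1 -
      (B l1 v + 2 * B l2 v) • l2 := ⟨_, rfl⟩
    obtain ⟨k, hk⟩ : ∃ k, k = v' - B o v' • g1 - B n v' • g2 := ⟨_, rfl⟩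
    have k1 : B l1 k = 0 := by simp [hk, hv', L.h11, L.h12, p1.1, p2.1]; ring
    have k2 : B l2 k = 0 := by simp [hk, hv', L.h22, h21, p1.2, p2.2]; ring
    have k3 : B o k = 0 := by simp [hk, L.symm o g1, L.symm o g2, a1, a3]
    have k4 : B n k = 0 := by simp [hk, L.symm n g1, L.symm n g2, a2, a4]
    have k5 : B w k = 0 := by
      have := h (ι k) (by rw [E.cast, k1]; simp) (by rw [E.cast, k2]; simp)
        (by rw [E.cast, k3]; simp) (by rw [E.cast, k4]; simp)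
      rw [E.cast] at this
      exact_mod_cast this
    have k6 : B u' k = 0 := by simp [hu', hu, k1, k2, k3, k4, k5]
    simp [hk, hv', L.symm u' l1, L.symm u' l2, L.symm u' g1, L.symm u' g2, q1, q2, q3, q4] at k6
    exact k6
  have e : 3 * B u u = 2 * (B l1 u * B l1 u + B l1 u * B l2 u + B l2 u * B l2 u) := by
    have := congrArg (B u) z
    simp only [hu', map_sub, map_zsmul, smul_eq_mul, map_zero, L.symm u l1, L.symm u l2] at this
    linarith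
  obtain ⟨c, hc⟩ : (3 : ℤ) ∣ B l1 u - B l2 u :=
    Int.prime_three.dvd_of_dvd_pow (n := 2) ⟨B l1 u * B l1 u + B l2 u * B l2 u - B u u,
      by linarith⟩
  refine ⟨B l2 u + 2 * c, B l2 u + c, B g1 w, B g2 w, ?_⟩
  have f : u - (B l2 u + 2 * c) • l1 - (B l2 u + c) • l2 = 0 := L.nd _ fun v => by
    have := congrArg (B v) z
    simp only [hu', map_sub, map_zsmul, smul_eq_mul, map_zero] at this
    rw [L.symm]
    simp only [map_sub, map_zsmul, smul_eq_mul]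
    have e1 : B l1 u = B l2 u + 3 * c := by linarith
    rw [e1] at this
    linarith
  rw [← sub_eq_zero, ← f]
  generalize B l2 u = a at *
  rw [hu]
  abel

theorem Geo.vg [Countable Λ] (L : Lat B l1 l2) (E : Emb B b ι) (G : Geo b (ι l1) (ι l2) D x y)
    {o n g1 g2 : Λ} (ht : t ∈ D) (ho : Hd b (x t) (y t) (ι o)) (hn : Hd b (x t) (y t) (ι n))
    (p1 : Pr B l1 l2 g1) (p2 : Pr B l1 l2 g2) (a1 : B g1 o = 1) (a2 : B g1 n = 0)
    (a3 : B g2 o = 0) (a4 : B g2 n = 1) :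
    ∃ t' ∈ D, Hd b (x t') (y t') (ι o) ∧ Hd b (x t') (y t') (ι n) ∧
      ∀ w, Hd b (x t') (y t') (ι w) → ∃ r1 r2 j z : ℤ, w = r1 • l1 + r2 • l2 + j • o + z • n := by
  let W : Submodule ℝ V := (b (ι l1)).ker ⊓ (b (ι l2)).ker ⊓ (b (ι o)).ker ⊓ (b (ι n)).ker
  have : CompleteSpace W := FiniteDimensional.complete ℝ W
  let S : Λ → Set W := fun w => {ξ | (∃ η : W, b (ι w) η ≠ 0) → b (ι w) (x t + ξ) ≠ 0}
  have c : ∀ w, Continuous fun ξ : W => b (ι w) (x t + ξ) := fun w =>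
    cont_b₂ b continuous_const (continuous_const.add continuous_subtype_val)
  have d : Dense (⋂ w, S w) := dense_iInter_of_isOpen (fun w => by
    by_cases h : ∃ η : W, b (ι w) η ≠ 0
    · simp only [S, h, true_imp_iff]
      exact isOpen_ne_fun (c w) continuous_const
    · simp only [S, h, false_imp_iff]
      exact isOpen_univ) fun w ξ => by
    by_cases h : ξ ∈ S w
    · exact subset_closure h
    obtain ⟨⟨η, hη⟩, h0⟩ := Classical.not_imp.1 h
    have k : Tendsto (fun s : ℝ => ξ + s • η) (𝓝[≠] 0) (𝓝 ξ) := by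
      have : Continuous fun s : ℝ => ξ + s • η := by fun_prop
      simpa using (this.tendsto 0).mono_left nhdsWithin_le_nhds
    refine mem_closure_of_tendsto k (eventually_nhdsWithin_of_forall fun s hs _ => ?_)
    rw [Submodule.coe_add, ← add_assoc, map_add, not_not.1 h0, zero_add, Submodule.coe_smul,
      map_smul]
    exact smul_ne_zero hs hη
  have k : Tendsto (fun ξ : W => (x t + ξ, y t)) (𝓝 0) (𝓝 (x t, y t)) := by
    have : Continuous fun ξ : W => (x t + ξ, y t) := by fun_prop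
    simpa using this.tendsto 0
  obtain ⟨ξ, h1, h2⟩ := d.inter_nhds_nonempty (k.eventually (G.mov t ht univ univ_mem))
  obtain ⟨⟨⟨w1, w2⟩, w3⟩, w4⟩ := ξ.2
  have p : ∀ g, b g ξ = 0 → Hd b (x t) (y t) g → Hd b (x t + ξ) (y t) g :=
    fun g a a' => ⟨by rw [map_add, a, a'.1, add_zero], a'.2⟩
  obtain ⟨t', h, e⟩ := h2 (p _ w1 (G.h1 t ht)) (p _ w2 (G.h2 t ht))
  refine ⟨t', h.1, (e _).2 (p _ w3 ho), (e _).2 (p _ w4 hn), fun w hw =>
    Vg_sat L E p1 p2 a1 a2 a3 a4 fun η b1 b2 b3 b4 => ?_⟩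
  by_contra r
  exact mem_iInter.1 h1 w ⟨⟨η, ⟨⟨b1, b2⟩, b3⟩, b4⟩, r⟩ ((e _).1 hw).1

end Vale.Agent.P287T.Ch
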