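import Vale.Agent.P287T.Ch.Lo2
import Vale.Agent.P287T.Ch.Vg

/-!
# The local theorem
-/

namespace Vale.Agent.P287T.Ch

open Set Filter Topology Module Vale.Agent.P287T.Sw

variable {Λ : Type} [AddCommGroup Λ] {B : Λ →+ Λ →+ ℤ} {l1 l2 : Λ} {V : Type}
  [NormedAddCommGroup V] [NormedSpace ℝ V] {b : V →ₗ[ℝ] V →ₗ[ℝ] ℝ}
  {ι : Λ →+ V} {T : Type} [TopologicalSpace T] {D : Set T} {x y : T → V} {s : ℤ}
  {P : T → Λ → Prop}

theorem Mv.trans {m1 m2 : V} (M : Mv B l1 l2 s b ι D x y P) (G : Geo b m1 m2 D x y) {v : Λ}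
    (hv : Node B l1 l2 v) {t t' : T} (ht : t ∈ D) (ht' : t' ∈ D) (h : Hd b (x t) (y t) (ι v))
    (h' : Hd b (x t') (y t') (ι v)) (p : P t v) : P t' v := by
  have := (G.conn (ι v)).induction₂' (fun a c => P a v → P c v) (fun a ha => ?_)
    (fun _ _ _ _ _ _ k k' q => k' (k q)) (x := t) (y := t') ⟨ht, h⟩ ⟨ht', h'⟩
  · exact this p
  · filter_upwards [self_mem_nhdsWithin, nhdsWithin_le_nhds (M.oc v hv a ha.1 ha.2)] with c hc k
    exact ⟨(k hc.1 hc.2).1, (k hc.1 hc.2).2⟩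

theorem hd_smul {x y z : V} {ε : ℝ} (hε : 0 < ε) (h : Hd b x y (ε • z)) : Hd b x y z := by
  simpa [Hd, hε.ne'] using h

theorem Nb.node (L : Lat B l1 l2) {v1 v2 e u : Λ} (hu : u ∈ Nb B l1 l2 v1 v2 e)
    (he : Pr B l1 l2 e) {p1 p2 : ℤ} (hF : Far p1 p2 (B l1 u) (B l2 u)) : Node B l1 l2 u :=
  ⟨hu.1, hu.2.2.2.2, ⟨e, he, by rw [L.symm, hu.2.2.2.1]⟩, le_trans (by norm_num) (far_big hF)⟩

theorem Mv.rot3 (M : Mv B l1 l2 s b ι D x y P) (L : Lat B l1 l2)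
    (G : Geo b (ι l1) (ι l2) D x y) {u : Λ} (hu : Node B l1 l2 u) (v : Λ) :
    ∃ u', Node B l1 l2 u' ∧ (∀ g, Pr B l1 l2 g → B g u' = B g u) ∧
      3 * B v u' - ip3 (B l1 v) (B l2 v) (B l1 u') (B l2 u') =
        3 * B v u - ip3 (B l1 v) (B l2 v) (B l1 u) (B l2 u) ∧
      ip3 (B l1 u') (B l2 u') (B l1 u') (B l2 u') = ip3 (B l1 u) (B l2 u) (B l1 u) (B l2 u) ∧
      (∀ t ∈ D, Hd b (x t) (y t) (ι u) → Hd b (x t) (y t) (ι u') ∧ (P t u → P t u')) ∧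
      ip3 (B l1 v) (B l2 v) (B l1 u') (B l2 u') ≤ 0 ∧
      ip3 (B l1 u') (B l2 u') (B l1 u') (B l2 u') * ip3 (B l1 v) (B l2 v) (B l1 v) (B l2 v) ≤
        4 * ip3 (B l1 v) (B l2 v) (B l1 u') (B l2 u') ^ 2 := by
  have h1 := L.rho_node hu
  have hd : ∀ t ∈ D, ∀ w, Hd b (x t) (y t) (ι w) → Hd b (x t) (y t) (ι (rho B l1 l2 w)) :=
    fun t ht w h => (hd_rho (G.h1 t ht) (G.h2 t ht) w).2 h
  have h0 : ip3 (B l1 v) (B l2 v) (B l1 u) (B l2 u) +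
      ip3 (B l1 v) (B l2 v) (-B l1 u - B l2 u) (B l1 u) +
      ip3 (B l1 v) (B l2 v) (-(-B l1 u - B l2 u) - B l1 u) (-B l1 u - B l2 u) = 0 := by
    unfold ip3; ring
  have h2 : 2 * (ip3 (B l1 v) (B l2 v) (B l1 u) (B l2 u) ^ 2 +
      ip3 (B l1 v) (B l2 v) (-B l1 u - B l2 u) (B l1 u) ^ 2 +
      ip3 (B l1 v) (B l2 v) (-(-B l1 u - B l2 u) - B l1 u) (-B l1 u - B l2 u) ^ 2) =
      3 * (ip3 (B l1 u) (B l2 u) (B l1 u) (B l2 u) * ip3 (B l1 v) (B l2 v) (B l1 v) (B l2 v)) := by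
    unfold ip3; ring
  have h3 : ip3 (-B l1 u - B l2 u) (B l1 u) (-B l1 u - B l2 u) (B l1 u) =
      ip3 (B l1 u) (B l2 u) (B l1 u) (B l2 u) := by unfold ip3; ring
  have h4 : ip3 (-(-B l1 u - B l2 u) - B l1 u) (-B l1 u - B l2 u) (-(-B l1 u - B l2 u) - B l1 u)
      (-B l1 u - B l2 u) = ip3 (B l1 u) (B l2 u) (B l1 u) (B l2 u) := by unfold ip3; ring
  generalize hc0 : ip3 (B l1 v) (B l2 v) (B l1 u) (B l2 u) = c0 at h0 h2
  generalize hc1 : ip3 (B l1 v) (B l2 v) (-B l1 u - B l2 u) (B l1 u) = c1 at h0 h2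
  generalize hc2 : ip3 (B l1 v) (B l2 v) (-(-B l1 u - B l2 u) - B l1 u) (-B l1 u - B l2 u) = c2
    at h0 h2
  obtain h | h | h : (c0 ≤ c1 ∧ c0 ≤ c2) ∨ (c1 ≤ c0 ∧ c1 ≤ c2) ∨ (c2 ≤ c0 ∧ c2 ≤ c1) := by omega
  · obtain ⟨a1, a2⟩ := min3 h0 h.1 h.2
    exact ⟨u, hu, fun _ _ => rfl, by rw [hc0], rfl, fun t ht k => ⟨k, id⟩, by rwa [hc0],
      by rw [hc0]; linarith⟩
  · obtain ⟨a1, a2⟩ := min3 (show c1 + c0 + c2 = 0 by omega) h.1 h.2
    refine ⟨_, h1, fun g hg => L.rho_pr hg u, by rw [L.rho_kap, hc0], by rw [L.rho1, L.rho2, h3],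
      fun t ht k => ⟨hd t ht u k, M.rot t ht u hu k⟩, by rwa [L.rho1, L.rho2, hc1], ?_⟩
    rw [L.rho1, L.rho2, hc1, h3]; linarith
  · obtain ⟨a1, a2⟩ := min3 (show c2 + c0 + c1 = 0 by omega) h.1 h.2
    refine ⟨_, L.rho_node h1, fun g hg => by rw [L.rho_pr hg, L.rho_pr hg],
      by rw [L.rho_kap, L.rho_kap, hc0], by rw [L.rho1, L.rho2, L.rho1, L.rho2, L.rho1, h4],
      fun t ht k => ⟨hd t ht _ (hd t ht u k),
        fun p => M.rot t ht _ h1 (hd t ht u k) (M.rot t ht u hu k p)⟩,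
      by rwa [L.rho1, L.rho2, L.rho1, L.rho2, L.rho1, hc2], ?_⟩
    rw [L.rho1, L.rho2, L.rho1, L.rho2, L.rho1, hc2, h4]; linarith

variable [FiniteDimensional ℝ V]

theorem Mv.step [Countable Λ] (M : Mv B l1 l2 s b ι D x y P) (L : Lat B l1 l2) (E : Emb B b ι)
    (G : Geo b (ι l1) (ι l2) D x y) {o n g1 g2 : Λ} (A : Adj B l1 l2 s o n) {t : T} (ht : t ∈ D)
    (ho : Hd b (x t) (y t) (ι o)) (hn : Hd b (x t) (y t) (ι n)) (p1 : Pr B l1 l2 g1)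
    (p2 : Pr B l1 l2 g2) (a1 : B g1 o = 1) (a2 : B g1 n = 0) (a3 : B g2 o = 0) (a4 : B g2 n = 1)
    (p : P t o) : P t n := by
  obtain ⟨t', ht', c1, c2, c3⟩ := G.vg L E ht ho hn p1 p2 a1 a2 a3 a4
  exact M.trans G A.nn ht' ht c2 hn (M.sw t' ht' o n A c1 c2 c3 (M.trans G A.no ht ht' ho c1 p))

theorem far_perp (E : Emb B b ι) {v : Λ} (hv : Node B l1 l2 v) {σ : ℝ} (hσ : σ ≠ 0) {l : V}
    (c1 : b (ι l1) l = σ * (2 * B l2 v + B l1 v)) (c2 : b (ι l2) l = -σ * (B l2 v + 2 * B l1 v))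
    {p1 p2 : ℤ} (h : 6 * ip3 (B l1 v) (B l2 v) (B l1 v) (B l2 v) <
      ip3 (B l1 v) (B l2 v) p1 p2 ^ 2) :
    ∀ᶠ q in 𝓝 (l, (0 : ℝ)), ∀ u, 0 < q.2 → q.1 = q.2 • ι u → Far p1 p2 (B l1 u) (B l2 u) := by
  obtain ⟨d1, d2, d3⟩ := node_dir hv.cop hv.big
  have d1' : (2 * B l2 v + B l1 v : ℝ) ≠ 0 := by exact_mod_cast d1
  have d2' : (B l2 v + 2 * B l1 v : ℝ) ≠ 0 := by exact_mod_cast d2
  have d3' : (B l2 v - B l1 v : ℝ) ≠ 0 := by exact_mod_cast d3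
  have h' : 6 * ipR (B l1 v) (B l2 v) (B l1 v) (B l2 v) < ipR (B l1 v) (B l2 v) p1 p2 ^ 2 := by
    simp only [← ip3_cast]; exact_mod_cast h
  refine far_ev E l1 l2 ?_ (by rw [c1]; exact mul_ne_zero hσ d1')
    (by rw [c2]; exact mul_ne_zero (neg_ne_zero.2 hσ) d2') ?_
  · have := mul_pos (show 0 < 3 * σ ^ 2 by positivity) (sub_pos.2 h')
    rw [c1, c2]
    unfold ipR at this ⊢
    linarith
  · rw [c1, c2, show σ * (2 * B l2 v + B l1 v) + -σ * (B l2 v + 2 * B l1 v) =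
      σ * (B l2 v - B l1 v) by ring]
    exact mul_ne_zero hσ d3'

theorem ori_ev (E : Emb B b ι) (l1 l2 v : Λ) {σ : ℤ} {l : V}
    (h : 0 < (σ : ℝ) * (B l1 v * b (ι l2) l - B l2 v * b (ι l1) l)) :
    ∀ᶠ q in 𝓝 (l, (0 : ℝ)), ∀ u, 0 < q.2 → q.1 = q.2 • ι u → 0 < σ * dt B l1 l2 v u := by
  have c1 : Continuous fun q : V × ℝ => b (ι l1) q.1 := cont_b₂ b continuous_const continuous_fst
  have c2 : Continuous fun q : V × ℝ => b (ι l2) q.1 := cont_b₂ b continuous_const continuous_fst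
  have a : ∀ᶠ q : V × ℝ in 𝓝 (l, (0 : ℝ)),
      0 < (σ : ℝ) * (B l1 v * b (ι l2) q.1 - B l2 v * b (ι l1) q.1) :=
    ContinuousAt.eventually_lt (by fun_prop) (by fun_prop) h
  filter_upwards [a] with q a u hε hq
  simp only [hq, map_smul, smul_eq_mul, E.cast] at a
  have : 0 < q.2 * ((σ * dt B l1 l2 v u : ℤ) : ℝ) := by
    unfold dt; push_cast; linarith
  exact_mod_cast (mul_pos_iff_of_pos_left hε).1 this

theorem kap_ev (E : Emb B b ι) {v : Λ} (hv : Node B l1 l2 v) {l : V}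
    (h0 : b (ι l1) l ≠ 0)
    (h : 3 * b (ι v) l = ipR (B l1 v) (B l2 v) (b (ι l1) l) (b (ι l2) l)) :
    ∀ᶠ q in 𝓝 (l, (0 : ℝ)), ∀ u, 0 < q.2 → q.1 = q.2 • ι u →
      4 * (3 * B v u - ip3 (B l1 v) (B l2 v) (B l1 u) (B l2 u)) ^ 2 <
      ip3 (B l1 u) (B l2 u) (B l1 u) (B l2 u) * ip3 (B l1 v) (B l2 v) (B l1 v) (B l2 v) := by
  have c1 : Continuous fun q : V × ℝ => b (ι l1) q.1 := cont_b₂ b continuous_const continuous_fst
  have c2 : Continuous fun q : V × ℝ => b (ι l2) q.1 := cont_b₂ b continuous_const continuous_fst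
  have c3 : Continuous fun q : V × ℝ => b (ι v) q.1 := cont_b₂ b continuous_const continuous_fst
  have hb : (14 : ℝ) ≤ ipR (B l1 v) (B l2 v) (B l1 v) (B l2 v) := by
    rw [← ip3_cast]; exact_mod_cast hv.big
  have a : ∀ᶠ q : V × ℝ in 𝓝 (l, (0 : ℝ)),
      4 * (3 * b (ι v) q.1 - ipR (B l1 v) (B l2 v) (b (ι l1) q.1) (b (ι l2) q.1)) ^ 2 <
      ipR (b (ι l1) q.1) (b (ι l2) q.1) (b (ι l1) q.1) (b (ι l2) q.1) *
        ipR (B l1 v) (B l2 v) (B l1 v) (B l2 v) := by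
    refine ContinuousAt.eventually_lt (by unfold ipR; fun_prop) (by unfold ipR; fun_prop) ?_
    have : 0 < ipR (b (ι l1) l) (b (ι l2) l) (b (ι l1) l) (b (ι l2) l) := by
      unfold ipR
      nlinarith [sq_nonneg (b (ι l1) l + b (ι l2) l), sq_pos_of_ne_zero h0, sq_nonneg (b (ι l2) l)]
    simp only [h, sub_self]
    nlinarith
  filter_upwards [a] with q a u hε hq
  simp only [hq, map_smul, smul_eq_mul, E.cast] at a
  have : q.2 ^ 2 * ((4 * (3 * B v u - ip3 (B l1 v) (B l2 v) (B l1 u) (B l2 u)) ^ 2 : ℤ) : ℝ) <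
      q.2 ^ 2 * ((ip3 (B l1 u) (B l2 u) (B l1 u) (B l2 u) *
        ip3 (B l1 v) (B l2 v) (B l1 v) (B l2 v) : ℤ) : ℝ) := by
    unfold ip3; unfold ipR at a; push_cast; linarith
  exact_mod_cast lt_of_mul_lt_mul_left this (by positivity)

omit [NormedSpace ℝ V] [FiniteDimensional ℝ V] in
theorem ev_fst {l : V} {p : V → Prop} (h : ∀ᶠ z in 𝓝 l, p z) :
    ∀ᶠ q : V × ℝ in 𝓝 (l, 0), p q.1 :=
  (continuous_fst.tendsto (l, (0 : ℝ))).eventually h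

/-- **The local theorem.** -/
theorem stLoc : StLoc := by
  intro Λ _ _ B l1 l2 s V _ _ _ b ι T _ D x y L E G
  have hs := L.symm
  have sq6 : ∀ N : ℤ, 14 ≤ N → 6 * N < N ^ 2 := fun N h => by nlinarith
  refine ⟨fun P hs0 M t ht t' ht' v v' hv hv' h h' p => ?_, fun v hv t ht O hO => ?_⟩
  · have hs1 : (s : ℝ) ≠ 0 := by exact_mod_cast hs0
    have hb : (14 : ℝ) ≤ ipR (B l1 v) (B l2 v) (B l1 v) (B l2 v) := by
      rw [← ip3_cast]; exact_mod_cast hv.big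
    have hb' : (14 : ℝ) ≤ ipR (B l1 v') (B l2 v') (B l1 v') (B l2 v') := by
      rw [← ip3_cast]; exact_mod_cast hv'.big
    obtain ⟨e, l, ξ, pe, ve, ve', hl, hl', hξ, hlξ, c1, c2, c3, ap⟩ := stepA L E hv v' hs1
      (G.neg t ht) (G.h1 t ht) (G.h2 t ht) (G.h1 t' ht') (G.h2 t' ht')
    obtain ⟨u, hu, ε, hε, ⟨t1, ht1, a1, a2⟩, ⟨t2, ht2, a3, a4⟩, a5, a6, a7⟩ := ap.ex
      ((ev_fst (G.stab E.symm ht univ_mem (hξ l1 (by simp)) (hξ l2 (by simp)) hl hlξ)).and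
      ((ev_fst (G.stab E.symm ht' univ_mem (hξ l1 (by simp)) (hξ l2 (by simp)) hl' hlξ)).and
      ((far_perp E hv (neg_ne_zero.2 hs1) c1 (by rw [neg_neg, c2]) (sq6 _ hv.big)).and
      ((ori_ev E l1 l2 v (σ := s) (by
        have : 0 < (s : ℝ) ^ 2 * ipR (B l1 v) (B l2 v) (B l1 v) (B l2 v) := by positivity
        rw [c1, c2]; unfold ipR at this; linarith)).and
      (kap_ev E hv' (by
        have : (2 * B l2 v + B l1 v : ℝ) ≠ 0 := by exact_mod_cast (node_dir hv.cop hv.big).1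
        rw [c1]; exact mul_ne_zero (neg_ne_zero.2 hs1) this) c3)))))
    have f1 := a5 u hε rfl
    have nu := Nb.node L hu pe f1
    have eu : B e u = 1 := by rw [hs, hu.2.2.2.1]
    have b1 := a2 _ (hξ v (by simp)) h
    have b2 := a4 _ (hξ v' (by simp)) h'
    obtain ⟨f, pf, fv⟩ := hv.sat
    have p1 : P t1 u := M.step L E G ⟨hv, nu, by rw [hs, hu.2.1], .inl f1, a6 u hε rfl⟩ ht1.1 b1
      (hd_smul hε a1) (g1 := f - B f u • e) ⟨by simp [pf.1, pe.1], by simp [pf.2, pe.2]⟩ pe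
      (by simp [fv, hs e v, ve]) (by simp [eu]) (by rw [hs, ve]) eu (M.trans G hv ht ht1.1 h b1 p)
    have p2 : P t2 u := M.trans G nu ht1.1 ht2.1 (hd_smul hε a1) (hd_smul hε a3) p1
    obtain ⟨w, nw, w1, w2, w3, w4, w5, w6⟩ := M.rot3 L G nu v'
    obtain ⟨b3, p3⟩ := w4 t2 ht2.1 (hd_smul hε a3)
    have ew : B e w = 1 := by rw [w1 e pe, eu]
    have big := far_big f1
    rw [← w3] at big
    have k7 := a7 u hε rfl
    rw [← w2, ← w3] at k7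
    have w7 : 6 * ip3 (B l1 v') (B l2 v') (B l1 v') (B l2 v') <
        ip3 (B l1 v') (B l2 v') (B l1 w) (B l2 w) ^ 2 := by nlinarith [hv'.big]
    have w8 : ipR (B l1 v') (B l2 v') (B l1 w) (B l2 w) < 0 := by
      rw [← ip3_cast]
      refine Int.cast_lt_zero.2 (lt_of_le_of_ne w5 fun k => ?_)
      rw [k] at w7
      linarith [hv'.big]
    obtain ⟨e', l', ξ', pe', we', ve'', hl2, hξ', hlξ', d1, d2, ap'⟩ := stepC L E hv' hs1
      (G.neg t2 ht2.1) (G.h1 t2 ht2.1) (G.h2 t2 ht2.1) b3 b2 nw.iso pe ew (by rw [hs, ve']) w5 w6 k7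
    obtain ⟨z, hz, η, hη, ⟨t3, ht3, g1, g2⟩, g3, g4, g5, g6⟩ := ap'.ex
      ((ev_fst (G.stab E.symm ht2.1 univ_mem (hξ' l1 (by simp)) (hξ' l2 (by simp)) hl2 hlξ')).and
      ((far_perp E hv' hs1 d1 d2 w7).and ((far_perp E hv' hs1 d1 d2 (sq6 _ hv'.big)).and
      ((ori_ev E l1 l2 w (σ := s) (by
        have : 0 < (s : ℝ) ^ 2 * -ipR (B l1 v') (B l2 v') (B l1 w) (B l2 w) :=
          mul_pos (by positivity) (neg_pos.2 w8)
        rw [d1, d2]; unfold ipR at this; linarith)).and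
      (ori_ev E l1 l2 v' (σ := -s) (by
        have : 0 < (s : ℝ) ^ 2 * ipR (B l1 v') (B l2 v') (B l1 v') (B l2 v') := by positivity
        rw [d1, d2]; unfold ipR at this; push_cast; linarith))))))
    have f2 := g3 z hη rfl
    have nz := Nb.node L hz pe' f2
    have ez : B e' z = 1 := by rw [hs, hz.2.2.2.1]
    have b4 := g2 _ (hξ' w (by simp)) b3
    have b5 := g2 _ (hξ' v' (by simp)) b2
    have p4 : P t3 z := M.step L E G ⟨nw, nz, by rw [hs, hz.2.1], .inl f2, g5 z hη rfl⟩ ht3.1 b4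
      (hd_smul hη g1) (g1 := e - B e z • e') ⟨by simp [pe.1, pe'.1], by simp [pe.2, pe'.2]⟩ pe'
      (by simp [ew, hs e' w, we']) (by simp [ez]) (by rw [hs, we']) ez
      (M.trans G nw ht2.1 ht3.1 b3 b4 (p3 p2))
    obtain ⟨f', pf', fv'⟩ := hv'.sat
    have p5 : P t3 v' := M.step L E G ⟨nz, hv', hz.2.2.1, .inr (g4 z hη rfl), by
        have := g6 z hη rfl
        unfold dt at this ⊢
        linarith⟩ ht3.1 (hd_smul hη g1) b5 pe' (g2 := f' - B f' z • e')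
      ⟨by simp [pf'.1, pe'.1], by simp [pf'.2, pe'.2]⟩ ez (by rw [hs, ve'']) (by simp [ez])
      (by simp [fv', hs e' v', ve'']) p4
    exact M.trans G hv' ht3.1 ht' b5 h' p5
  · obtain ⟨e, l, ξ, pe, -, -, hl, -, hξ, hlξ, c1, c2, -, ap⟩ := stepA L E hv v
      (one_ne_zero (α := ℝ)) (G.neg t ht) (G.h1 t ht) (G.h2 t ht) (G.h1 t ht) (G.h2 t ht)
    obtain ⟨u, hu, ε, hε, ⟨t1, ht1, a1, -⟩, a5⟩ := ap.ex
      ((ev_fst (G.stab E.symm ht hO (hξ l1 (by simp)) (hξ l2 (by simp)) hl hlξ)).and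
      (far_perp E hv (neg_ne_zero.2 one_ne_zero) c1 (by rw [neg_neg, c2]) (sq6 _ hv.big)))
    exact ⟨t1, ht1, u, Nb.node L hu pe (a5 u hε rfl), hd_smul hε a1⟩

end Vale.Agent.P287T.Ch
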