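import Vale.Agent.P287T.Ch.Glob
import Vale.Agent.P287T.Ch.Loc

/-!
# The propagation theorem
-/

namespace Vale.Agent.P287T.Ch

/-- **CHAIN** -/
theorem chain : Top.CHAIN := chain_loc stLoc

end Vale.Agent.P287T.Ch
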