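import Vale.Agent.P287T.Ch.Den

/-!
# Common neighbours with a prescribed direction
-/

namespace Vale.Agent.P287T.Ch

open Set Filter Topology Module

variable {Λ : Type} [AddCommGroup Λ] {B : Λ →+ Λ →+ ℤ} {l1 l2 : Λ} {V : Type}
  [NormedAddCommGroup V] [NormedSpace ℝ V] {b : V →ₗ[ℝ] V →ₗ[ℝ] ℝ} {ι : Λ →+ V}

theorem cop_shift {p1 p2 a1 a2 s : ℤ} (h : IsCoprime p1 p2) (hd : p1 * a2 - p2 * a1 ∣ s) :
    IsCoprime (p1 + s * a1) (p2 + s * a2) := by
  obtain ⟨A, C, h⟩ := h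
  obtain ⟨k, rfl⟩ := hd
  exact ⟨A - k * (A * a1 + C * a2) * a2, C + k * (A * a1 + C * a2) * a1, by linear_combination h⟩

theorem ex_iso (hs : ∀ x y, B x y = B y x) {G : Set Λ} {e0 y0 m : Λ} {l : V}
    (h0 : B e0 e0 = 0) (h1 : B e0 y0 ≠ 0) (h2 : ∀ g ∈ G, B g e0 = 0 ∧ B g y0 = 0)
    (h3 : ∀ g ∈ G, B g m = 0) (h4 : b (ι m) l ≠ 0) :
    ∃ e1, B e1 e1 = 0 ∧ (∀ g ∈ G, B g e1 = 0) ∧ b (ι e1) l ≠ 0 := by
  by_cases h5 : b (ι e0) l = 0
  swap
  · exact ⟨e0, h0, fun g hg => (h2 g hg).1, h5⟩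
  obtain ⟨y, a1, a2, a3⟩ : ∃ y, (∀ g ∈ G, B g y = 0) ∧ B e0 y ≠ 0 ∧ b (ι y) l ≠ 0 := by
    by_cases h6 : B e0 m = 0
    swap
    · exact ⟨m, h3, h6, h4⟩
    by_cases h7 : b (ι y0) l = 0
    swap
    · exact ⟨y0, fun g hg => (h2 g hg).2, h1, h7⟩
    exact ⟨m + y0, fun g hg => by simp [h3 g hg, (h2 g hg).2], by simpa [h6] using h1,
      by simpa [h7] using h4⟩
  refine ⟨(2 * B e0 y) • y - B y y • e0, ?_, fun g hg => by simp [a1 g hg, (h2 g hg).1], ?_⟩
  · simp only [map_sub, map_zsmul, AddMonoidHom.sub_apply, AddMonoidHom.smul_apply, smul_eq_mul,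
      h0, hs y e0]
    ring
  · rw [map_sub, iota_zsmul, iota_zsmul]
    simp only [map_sub, map_smul, LinearMap.sub_apply, LinearMap.smul_apply, smul_eq_mul, h5,
      mul_zero, sub_zero]
    refine mul_ne_zero ?_ a3
    exact_mod_cast mul_ne_zero two_ne_zero a2

variable [FiniteDimensional ℝ V]

theorem iso_dens (hs : ∀ x y, B x y = B y x) (E : Emb B b ι) {G : Set Λ} (hG : G.Finite) {e1 : Λ}
    {l : V} (h0 : B e1 e1 = 0) (h1 : ∀ g ∈ G, B g e1 = 0) (h2 : b (ι e1) l ≠ 0) (hl : b l l = 0)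
    (hlG : ∀ g ∈ G, b (ι g) l = 0) {O : Set V} (hO : O ∈ 𝓝 l) :
    ∃ ε, B ε ε = 0 ∧ (∀ g ∈ G, B g ε = 0) ∧ ∃ c : ℝ, 0 < c ∧ c • ι ε ∈ O := by
  have c1 : Continuous fun z => b (ι e1) z := cont_b₂ b continuous_const continuous_id
  have c2 : ContinuousAt (fun z => z - (b z z / (2 * b (ι e1) z)) • ι e1) l :=
    continuousAt_id.sub ((((cont_b₂ b continuous_id continuous_id).continuousAt).div
      (continuous_const.mul c1).continuousAt (mul_ne_zero two_ne_zero h2)).smul continuousAt_const)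
  have c3 : ∀ᶠ z in 𝓝 l, z - (b z z / (2 * b (ι e1) z)) • ι e1 ∈ O :=
    c2.eventually_mem (by simpa [hl] using hO)
  obtain ⟨u, hu, c, hc, a1, a2⟩ := E.dens hG hlG (c3.and (c1.continuousAt.eventually_ne h2))
  have a3 : (B e1 u : ℝ) ≠ 0 := by
    intro h
    rw [map_smul, E.cast, h, smul_zero] at a2
    exact a2 rfl
  refine ⟨(2 * B e1 u ^ 2) • u - (B e1 u * B u u) • e1, ?_,
    fun g hg => by simp [hu g hg, h1 g hg], c / (2 * (B e1 u : ℝ) ^ 2), by positivity, ?_⟩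
  · simp only [map_sub, map_zsmul, AddMonoidHom.sub_apply, AddMonoidHom.smul_apply, smul_eq_mul,
      h0, hs u e1]
    ring
  · have e : (c / (2 * (B e1 u : ℝ) ^ 2)) • ι ((2 * B e1 u ^ 2) • u - (B e1 u * B u u) • e1) =
        c • ι u - (b (c • ι u) (c • ι u) / (2 * b (ι e1) (c • ι u))) • ι e1 := by
      rw [map_sub, iota_zsmul, iota_zsmul, smul_sub, smul_smul, smul_smul]
      simp only [map_smul, LinearMap.smul_apply, smul_eq_mul, E.cast]
      congr 2 <;> push_cast <;> field_simp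
    rwa [e]

omit [FiniteDimensional ℝ V] in
theorem tv_lim (u0 m ε : V) {c q μ c' d : ℝ} (hc : 0 < c) (hq : 0 < q) (hc' : 0 < c') (hd : 0 < d)
    {O : Set V} (hO : O ∈ 𝓝 (c' • ε)) (R0 : ℝ) : ∃ n : ℕ, ∃ R : ℝ, R0 < R ∧
      R⁻¹ • (u0 + (d * n * c) • m + (d * n * (d * n * c * q - μ)) • ε) ∈ O := by
  have h1 : Tendsto (fun n : ℕ => d * (n : ℝ)) atTop atTop :=
    tendsto_natCast_atTop_atTop.const_mul_atTop hd
  have h2 : Tendsto (fun n : ℕ => d * (n : ℝ) * c * q - μ) atTop atTop :=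
    tendsto_atTop_add_const_right _ _ ((h1.atTop_mul_const hc).atTop_mul_const hq)
  have h3 : Tendsto (fun n : ℕ => d * (n : ℝ) * (d * n * c * q - μ)) atTop atTop :=
    h1.atTop_mul_atTop₀ h2
  have h4 : Tendsto (fun n : ℕ => (c' * (d * (n : ℝ) * (d * n * c * q - μ))⁻¹) • u0 +
      (c' * c * (d * (n : ℝ) * c * q - μ)⁻¹) • m + c' • ε) atTop
      (𝓝 ((c' * 0) • u0 + (c' * c * 0) • m + c' • ε)) :=
    (((h3.inv_tendsto_atTop.const_mul c').smul_const u0).add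
      ((h2.inv_tendsto_atTop.const_mul (c' * c)).smul_const m)).add tendsto_const_nhds
  simp only [mul_zero, zero_smul, zero_add] at h4
  obtain ⟨n, a1, a2, a3, a4⟩ := ((h4.eventually_mem hO).and ((h1.eventually_gt_atTop 0).and
    ((h2.eventually_gt_atTop 0).and ((h3.atTop_div_const hc').eventually_gt_atTop R0)))).exists
  refine ⟨n, _, a4, ?_⟩
  have e : (d * (n : ℝ) * (d * n * c * q - μ) / c')⁻¹ •
      (u0 + (d * n * c) • m + (d * n * (d * n * c * q - μ)) • ε) =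
      (c' * (d * (n : ℝ) * (d * n * c * q - μ))⁻¹) • u0 +
      (c' * c * (d * (n : ℝ) * c * q - μ)⁻¹) • m + c' • ε := by
    have := a2.ne'
    have := a3.ne'
    rw [smul_add, smul_add, smul_smul, smul_smul]
    generalize d * (n : ℝ) = i at *
    generalize i * c * q - μ = τ at *
    congr 2
    · congr 1; field_simp
    · congr 1; field_simp
    · field_simp
  rwa [e]

/-- **Common neighbours.** -/
theorem stCn : StCn := by
  intro Λ _ B l1 l2 V _ _ _ b ι v1 v2 e e0 y0 l m x y L E hneg he hee h1e h2e huni h00 h0y h0G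
    hl hlG hla hm hml O hO R0
  have hs := L.symm
  have cb : ∀ g, Continuous fun z => b g z := fun g => cont_b₂ b continuous_const continuous_id
  -- a lattice vector with positive pairing
  obtain ⟨m', hm', hm'l⟩ : ∃ m', (∀ g ∈ ({l1, l2, v1, v2, e} : Set Λ), B g m' = 0) ∧
      0 < b (ι m') l := by
    obtain ⟨u, hu, c, hc, a⟩ := E.dens (Set.toFinite _) hm
      ((cb l).continuousAt.eventually_ne (show b l m ≠ 0 by rwa [E.symm]))
    have a' : b (ι u) l ≠ 0 := by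
      intro h
      apply a
      rw [map_smul, E.symm, h, smul_zero]
    rcases a'.lt_or_gt with h | h
    · exact ⟨-u, fun g hg => by simp [hu g hg], by simpa using h⟩
    · exact ⟨u, hu, h⟩
  have hm'G : ∀ g ∈ ({v1, v2, e} : Set Λ), B g m' = 0 := fun g hg => hm' g (.inr (.inr hg))
  obtain ⟨e1, a1, a2, a3⟩ := ex_iso hs h00 h0y h0G hm'G hm'l.ne'
  have ev : ∀ᶠ z in 𝓝 l, ¬ (b (ι l1) z = 0 ∧ b (ι l2) z = 0) := by
    rcases not_and_or.1 hla with h | h
    · exact ((cb _).continuousAt.eventually_ne h).mono fun z k k' => k k'.1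
    · exact ((cb _).continuousAt.eventually_ne h).mono fun z k k' => k k'.2
  obtain ⟨ε, b1, b2, c', hc', b3, b4, b5⟩ := iso_dens hs E (Set.toFinite _) a1 a2 a3 hl hlG
    ((eventually_mem_nhds_iff.2 hO).and (ev.and
      ((cb (ι m')).continuousAt.eventually (lt_mem_nhds hm'l))))
  have b4' : ¬ (B l1 ε = 0 ∧ B l2 ε = 0) := fun k => b4 (by simp [E.cast, k.1, k.2])
  have b5' : 0 < B m' ε := by
    rw [map_smul, E.cast, smul_eq_mul] at b5
    exact_mod_cast (mul_pos_iff_of_pos_left hc').1 b5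
  -- the charge of the first solution
  obtain ⟨a, c1, c2⟩ : ∃ a, IsCoprime (B l1 a) (B l2 a) ∧
      B l1 a * B l2 ε - B l2 a * B l1 ε ≠ 0 := by
    by_cases h : B l1 l1 * B l2 ε - B l2 l1 * B l1 ε = 0
    · refine ⟨l2, by rw [L.h12]; exact isCoprime_one_left.neg_left, fun k => b4' ?_⟩
      rw [L.h11, hs l2 l1, L.h12] at h
      rw [L.h12, L.h22] at k
      omega
    · exact ⟨l1, by rw [hs l2 l1, L.h12]; exact isCoprime_one_right.neg_right, h⟩
  obtain ⟨k, hk, k0, k1, k2⟩ := huni a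
  obtain ⟨u0, d0, d1, d2, d3, d4, d5, d6⟩ : ∃ u0, B u0 u0 = 0 ∧ B u0 v1 = -1 ∧ B u0 v2 = -1 ∧
      B u0 e = 1 ∧ B l1 u0 = B l1 a ∧ B l2 u0 = B l2 a ∧ 0 < B u0 ε := by
    obtain ⟨w, w1, w2, w3, w4, w5, w6⟩ : ∃ w, B w v1 = -1 ∧ B w v2 = -1 ∧
        B w e = 1 ∧ B l1 w = B l1 a ∧ B l2 w = B l2 a ∧ 0 < B w ε := by
      refine ⟨a + k + (|B (a + k) ε| + 1) • m', ?_, ?_, ?_, ?_, ?_, ?_⟩
      · rw [map_add, map_zsmul, AddMonoidHom.add_apply, k1, AddMonoidHom.smul_apply, hs m',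
          hm' v1 (by simp)]; simp
      · rw [map_add, map_zsmul, AddMonoidHom.add_apply, k2, AddMonoidHom.smul_apply, hs m',
          hm' v2 (by simp)]; simp
      · rw [map_add, map_zsmul, AddMonoidHom.add_apply, k0, AddMonoidHom.smul_apply, hs m',
          hm' e (by simp)]; simp
      · rw [map_add, map_zsmul, map_add, hk.1, hm' l1 (by simp)]; simp
      · rw [map_add, map_zsmul, map_add, hk.2, hm' l2 (by simp)]; simp
      · rw [map_add, map_zsmul, AddMonoidHom.add_apply, AddMonoidHom.smul_apply, smul_eq_mul]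
        have := neg_abs_le (B (a + k) ε)
        have := abs_nonneg (B (a + k) ε)
        nlinarith
    obtain ⟨q, hq⟩ := L.even w
    refine ⟨w - q • e, ?_, ?_, ?_, ?_, ?_, ?_, ?_⟩
    · simp [hq, hee, w3, hs e w]
    · simp [w1, hs e v1, h1e]
    · simp [w2, hs e v2, h2e]
    · simp [w3, hee]
    · simp [w4, he.1]
    · simp [w5, he.2]
    · simpa [b2 e (by simp)] using w6
  -- a negative vector
  obtain ⟨m2, e1', e2'⟩ : ∃ m2, (∀ g ∈ ({l1, l2, v1, v2, e, ε} : Set Λ), B g m2 = 0) ∧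
      B m2 m2 < 0 := by
    obtain ⟨z, z0, hz⟩ := exists_perp b [ι l1, ι l2, ι v1, ι v2, ι e, ι ε, x, y]
      (lt_of_lt_of_le (by simp) E.dim)
    have z1 := hneg z (hz _ (by simp)) (hz _ (by simp))
      ⟨by rw [E.symm]; exact hz _ (by simp), by rw [E.symm]; exact hz _ (by simp)⟩ z0
    obtain ⟨u, hu, c, hc, a⟩ := E.dens (G := {l1, l2, v1, v2, e, ε}) (z := z) (Set.toFinite _)
      (by rintro g (rfl | rfl | rfl | rfl | rfl | rfl) <;> exact hz _ (by simp))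
      ((cont_b₂ b continuous_id continuous_id).continuousAt.eventually (gt_mem_nhds z1))
    refine ⟨u, hu, ?_⟩
    have a' : c * (c * (B u u : ℝ)) < 0 := by simpa [E.cast] using a
    by_contra h
    have : (0 : ℝ) ≤ B u u := by exact_mod_cast not_lt.1 h
    exact absurd a' (not_lt.2 (by positivity))
  obtain ⟨q2, hq2⟩ := L.even m2
  obtain ⟨n, R, r1, r2⟩ := tv_lim (ι u0) (ι m2) (ι ε) (c := B u0 ε) (q := ((-q2 : ℤ) : ℝ))
    (μ := B u0 m2) (d := ((B l1 a * B l2 ε - B l2 a * B l1 ε) ^ 2 : ℤ)) (by exact_mod_cast d6)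
    (by exact_mod_cast (by omega : 0 < -q2)) hc' (by exact_mod_cast sq_pos_of_ne_zero c2) b3 R0
  generalize hi : (B l1 a * B l2 ε - B l2 a * B l1 ε) ^ 2 * (n : ℤ) = i
  have hi' : (((B l1 a * B l2 ε - B l2 a * B l1 ε) ^ 2 : ℤ) : ℝ) * (n : ℝ) = i := by
    rw [← hi]; push_cast; ring
  rw [hi'] at r2
  refine ⟨u0 + (i * B u0 ε) • m2 + (i * (i * B u0 ε * -q2 - B u0 m2)) • ε, ⟨?_, ?_, ?_, ?_, ?_⟩, R,
    r1, ?_⟩
  · simp only [map_add, map_zsmul, AddMonoidHom.add_apply, AddMonoidHom.smul_apply, smul_eq_mul,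
      d0, b1, hq2, hs m2 u0, hs ε u0, hs m2 ε, e1' ε (by simp)]
    ring
  · simp [d1, hs m2 v1, hs ε v1, e1' v1 (by simp), b2 v1 (by simp)]
  · simp [d2, hs m2 v2, hs ε v2, e1' v2 (by simp), b2 v2 (by simp)]
  · simp [d3, hs m2 e, hs ε e, e1' e (by simp), b2 e (by simp)]
  · simp only [map_add, map_zsmul, smul_eq_mul, d4, d5, e1' l1 (by simp), e1' l2 (by simp),
      mul_zero, add_zero]
    refine cop_shift c1 (Dvd.dvd.mul_right ?_ _)
    rw [← hi, sq, mul_assoc]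
    exact Dvd.intro _ rfl
  · rw [map_add, map_add, iota_zsmul, iota_zsmul]
    push_cast at r2 ⊢
    exact r2

end Vale.Agent.P287T.Ch
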