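import Vale.Agent.P287T.Top.Defs
import Vale.Agent.P287T.Op.Nil
import Mathlib.Analysis.Normed.Module.Connected
import Mathlib.LinearAlgebra.Eigenspace.Minpoly

/-!
# The smooth cubic forms are an open and connected set
-/

open Set Filter Topology MvPolynomial

namespace Vale.Agent.P287T.Ch

open Vale.Agent.P287T.Per Vale.Agent.P287T.Top Vale.Agent.P287T.Op

/-- `1 + s T` is onto for all but finitely many `s`. -/
theorem fin_not_onto {V : Type} [AddCommGroup V] [Module ℂ V] [Module.Finite ℂ V]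
    (T : Module.End ℂ V) : {s : ℂ | ¬ Function.Surjective (1 + s • T : Module.End ℂ V)}.Finite := by
  refine ((Module.End.finite_hasEigenvalue T).image fun μ => -μ⁻¹).subset fun s hs => ?_
  have h1 : ¬ Function.Injective (1 + s • T : Module.End ℂ V) := fun h =>
    hs (LinearMap.injective_iff_surjective.1 h)
  rw [← LinearMap.ker_eq_bot, Submodule.eq_bot_iff] at h1
  push Not at h1
  obtain ⟨x, hx, hx0⟩ := h1
  have h2 : x + s • T x = 0 := by simpa using hx
  have hs0 : s ≠ 0 := by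
    rintro rfl
    exact hx0 (by simpa using h2)
  refine ⟨-s⁻¹, Module.End.hasEigenvalue_of_hasEigenvector (x := x) ⟨?_, hx0⟩, by simp⟩
  rw [Module.End.mem_eigenspace_iff]
  have h3 : s • T x = -x := eq_neg_of_add_eq_zero_right h2
  calc T x = s⁻¹ • s • T x := by rw [smul_smul, inv_mul_cancel₀ hs0, one_smul]
    _ = -s⁻¹ • x := by rw [h3, smul_neg, neg_smul]

/-- On a line through a smooth cubic all but finitely many cubics are smooth. -/
theorem fin_sing {k : ℕ} {W G : MvPolynomial (Fin k) ℂ} (hW : W.IsHomogeneous 3)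
    (hG : G.IsHomogeneous 3) (hs : G3.SmoothForm W) :
    {s : ℂ | ¬ G3.SmoothForm (W + s • G)}.Finite := by
  obtain ⟨d, hd⟩ := jac_onto hW hs
  have : Module.Finite ℂ (homogeneousSubmodule (Fin k) ℂ (d + 2)) :=
    Module.Finite.iff_fg.2 (homogeneousSubmodule_fg _ _ _)
  let f : MvPolynomial (Fin k) ℂ → (tupH k d) →ₗ[ℂ] MvPolynomial (Fin k) ℂ := fun A =>
    (jacL A).comp (tupH k d).subtype
  let f0 := (f W).codRestrict (homogeneousSubmodule (Fin k) ℂ (d + 2)) fun a => jacL_mem hW a.2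
  let f1 := (f G).codRestrict (homogeneousSubmodule (Fin k) ℂ (d + 2)) fun a => jacL_mem hG a.2
  have h0 : LinearMap.range f0 = ⊤ := LinearMap.range_eq_top.2 fun v => by
    obtain ⟨a, ha, e⟩ := hd v.1 v.2
    exact ⟨⟨a, ha⟩, Subtype.ext e⟩
  obtain ⟨σ, hσ⟩ := f0.exists_rightInverse_of_surjective h0
  refine (fin_not_onto (f1 ∘ₗ σ)).subset fun s hs hsur => hs ?_
  refine G3.Mx.smooth_of_cof (N := d + 2) fun i => ?_
  obtain ⟨v, hv⟩ := hsur ⟨X i ^ (d + 2), isHomogeneous_X_pow i _⟩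
  refine ⟨(σ v).1, ?_⟩
  have e1 : jacL W (σ v).1 = v.1 := congrArg Subtype.val (LinearMap.congr_fun hσ v)
  have e2 : v.1 + s • jacL G (σ v).1 = X i ^ (d + 2) := congrArg Subtype.val hv
  rw [← e2, ← e1, jacL_apply, jacL_apply, Finset.smul_sum, ← Finset.sum_add_distrib]
  exact Finset.sum_congr rfl fun j _ => by
    rw [map_add, Derivation.map_smul, mul_add, mul_smul_comm]

theorem conn_open : IsOpen {t : T3 | Sm (p3 t)} := by
  refine isOpen_iff_mem_nhds.2 fun t0 h0 => ?_
  have h := G3.Mx.smooth_ev (l := 𝓝 t0) (W := fun t => p3 t) (W0 := p3 t0)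
    (Eventually.of_forall p3_hom) (p3_hom t0) h0.sm fun m =>
      ((lcoeff ℂ m ∘ₗ p3).continuous_of_finiteDimensional).tendsto t0
  exact h.mono fun t ht => ⟨p3_hom t, ht⟩

theorem conn_pre : IsPreconnected {t : T3 | Sm (p3 t)} := by
  refine isPreconnected_of_forall_pair fun t0 h0 t1 h1 => ?_
  have hf := fin_sing (p3_hom t0) (p3_hom (t1 - t0)) h0.sm
  have hc := hf.countable.isConnected_compl_of_one_lt_rank (E := ℂ) (by simp)
  refine ⟨(fun s : ℂ => t0 + s • (t1 - t0)) '' _, ?_, ⟨0, ?_, by simp⟩, ⟨1, ?_, by simp⟩,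
    hc.isPreconnected.image _ (by fun_prop)⟩
  · rintro _ ⟨s, hs, rfl⟩
    refine ⟨p3_hom _, ?_⟩
    rw [map_add, map_smul]
    exact not_not.1 hs
  · refine not_not.2 ?_
    rw [zero_smul, add_zero]
    exact h0.sm
  · refine not_not.2 ?_
    rw [one_smul, ← map_add, add_sub_cancel]
    exact h1.sm

end Vale.Agent.P287T.Ch
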