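import Vale.Agent.P287T.Sw.NoWall
import Mathlib.Analysis.Calculus.FDeriv.Basic
import Mathlib.Analysis.Normed.Module.FiniteDimension
import Mathlib.Topology.Connected.Basic

/-!
# P287, propagation of non-emptiness: definitions and statements

`Λ` is the Mukai lattice with its form `B` and the roots `l1, l2` of `A2`, `ι : Λ → V` its real
span, `(x t, y t)` the period plane of the parameter `t`.
-/

namespace Vale.Agent.P287T.Ch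

open Set Filter Topology Module Vale.Agent.P287T.Sw

section lat

variable {Λ : Type} [AddCommGroup Λ] (B : Λ →+ Λ →+ ℤ) (l1 l2 : Λ)

/-- Orthogonal to `A2`. -/
def Pr (x : Λ) : Prop := B l1 x = 0 ∧ B l2 x = 0

/-- A hyperbolic pair. -/
structure Hy (e f : Λ) : Prop where
  ee : B e e = 0
  ff : B f f = 0
  ef : B e f = 1

/-- Two orthogonal hyperbolic pairs. -/
structure UU (e1 f1 e2 f2 : Λ) : Prop where
  u1 : Hy B e1 f1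
  u2 : Hy B e2 f2
  ee : B e1 e2 = 0
  ef : B e1 f2 = 0
  fe : B f1 e2 = 0
  ff : B f1 f2 = 0

/-- An even lattice containing `A2`, with many hyperbolic planes. -/
structure Lat : Prop where
  symm : ∀ x y, B x y = B y x
  even : ∀ x, Even (B x x)
  h11 : B l1 l1 = 2
  h22 : B l2 l2 = 2
  h12 : B l1 l2 = -1
  nd : ∀ x, (∀ y, B x y = 0) → x = 0
  uu : ∀ v, B v v = 0 → IsCoprime (B l1 v) (B l2 v) → ∃ e1 f1 e2 f2, UU B e1 f1 e2 f2 ∧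
    ∀ g ∈ ({l1, l2, v} : Set Λ), B g e1 = 0 ∧ B g f1 = 0 ∧ B g e2 = 0 ∧ B g f2 = 0

/-- The classes whose moduli spaces are propagated. -/
structure Node (v : Λ) : Prop where
  iso : B v v = 0
  cop : IsCoprime (B l1 v) (B l2 v)
  sat : ∃ f, Pr B l1 l2 f ∧ B f v = 1
  big : 14 ≤ ip3 (B l1 v) (B l2 v) (B l1 v) (B l2 v)

/-- The rotation of order three of `A2`, the identity on the orthogonal complement. -/
def rho (x : Λ) : Λ := x - B l2 x • l2 - (B l1 x + B l2 x) • l1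

/-- The determinant of the charges. -/
def dt (o n : Λ) : ℤ := B l1 o * B l2 n - B l2 o * B l1 n

/-- The numerical hypothesis of a switch from `o` to `n`, `s` is the orientation. -/
structure Adj (s : ℤ) (o n : Λ) : Prop where
  no : Node B l1 l2 o
  nn : Node B l1 l2 n
  on : B o n = -1
  far : Far (B l1 o) (B l2 o) (B l1 n) (B l2 n) ∨ Far (B l1 n) (B l2 n) (B l1 o) (B l2 o)
  ori : 0 < s * dt B l1 l2 o n

end lat

section geo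

variable {Λ : Type} [AddCommGroup Λ] {V : Type} [NormedAddCommGroup V] [NormedSpace ℝ V]

/-- The real span of the lattice. -/
structure Emb (B : Λ →+ Λ →+ ℤ) (b : V →ₗ[ℝ] V →ₗ[ℝ] ℝ) (ι : Λ →+ V) : Prop where
  symm : ∀ x y, b x y = b y x
  nd : ∀ x, (∀ y, b x y = 0) → x = 0
  cast : ∀ x y, b (ι x) (ι y) = B x y
  span : Submodule.span ℝ (range ι) = ⊤
  dim : 16 ≤ finrank ℝ V

/-- `z` is orthogonal to the plane spanned by `x` and `y`. -/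
def Hd (b : V →ₗ[ℝ] V →ₗ[ℝ] ℝ) (x y z : V) : Prop := b z x = 0 ∧ b z y = 0

/-- A chart of the period domain. -/
structure Geo (b : V →ₗ[ℝ] V →ₗ[ℝ] ℝ) (m1 m2 : V) {T : Type} [TopologicalSpace T] (D : Set T)
    (x y : T → V) : Prop where
  h1 : ∀ t ∈ D, Hd b (x t) (y t) m1
  h2 : ∀ t ∈ D, Hd b (x t) (y t) m2
  neg : ∀ t ∈ D, ∀ z, b m1 z = 0 → b m2 z = 0 → Hd b (x t) (y t) z → z ≠ 0 → b z z < 0
  mov : ∀ t ∈ D, ∀ O ∈ 𝓝 t, ∀ᶠ q in 𝓝 (x t, y t), Hd b q.1 q.2 m1 → Hd b q.1 q.2 m2 →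
    ∃ t' ∈ D ∩ O, ∀ z, Hd b (x t') (y t') z ↔ Hd b q.1 q.2 z
  conn : ∀ z, IsPreconnected {t | t ∈ D ∧ Hd b (x t) (y t) z}

/-- The real vector `l` is a limit of directions of large elements of `S`. -/
def Appr (ι : Λ →+ V) (S : Set Λ) (l : V) : Prop :=
  ∀ O ∈ 𝓝 l, ∀ R0 : ℝ, ∃ u ∈ S, ∃ R : ℝ, R0 < R ∧ R⁻¹ • ι u ∈ O

/-- The moves of the predicate `P` in a chart. -/
structure Mv (B : Λ →+ Λ →+ ℤ) (l1 l2 : Λ) (s : ℤ) (b : V →ₗ[ℝ] V →ₗ[ℝ] ℝ) (ι : Λ →+ V)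
    {T : Type} [TopologicalSpace T] (D : Set T) (x y : T → V) (P : T → Λ → Prop) : Prop where
  oc : ∀ v, Node B l1 l2 v → ∀ t ∈ D, Hd b (x t) (y t) (ι v) →
    ∀ᶠ t' in 𝓝 t, t' ∈ D → Hd b (x t') (y t') (ι v) → (P t v ↔ P t' v)
  sw : ∀ t ∈ D, ∀ o n, Adj B l1 l2 s o n → Hd b (x t) (y t) (ι o) → Hd b (x t) (y t) (ι n) →
    (∀ w, Hd b (x t) (y t) (ι w) → ∃ r1 r2 j z : ℤ, w = r1 • l1 + r2 • l2 + j • o + z • n) →
    P t o → P t n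
  rot : ∀ t ∈ D, ∀ v, Node B l1 l2 v → Hd b (x t) (y t) (ι v) → P t v → P t (rho B l1 l2 v)

end geo

/-- **Klein chart**: a submersive period map gives charts. -/
def StKlein : Prop := ∀ (V : Type) [NormedAddCommGroup V] [NormedSpace ℝ V] [FiniteDimensional ℝ V]
  (b : V →ₗ[ℝ] V →ₗ[ℝ] ℝ) (m1 m2 : V) (T : Type) [NormedAddCommGroup T] [NormedSpace ℝ T]
  [FiniteDimensional ℝ T] (x y : T → V) (x' y' : T →L[ℝ] V) (t0 : T),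
  (∀ z w, b z w = b w z) → HasStrictFDerivAt x x' t0 → HasStrictFDerivAt y y' t0 →
  (∀ᶠ t in 𝓝 t0, Hd b (x t) (y t) m1 ∧ Hd b (x t) (y t) m2) →
  0 < b (x t0) (x t0) → b (y t0) (y t0) = b (x t0) (x t0) → b (x t0) (y t0) = 0 →
  (∀ z, b m1 z = 0 → b m2 z = 0 → Hd b (x t0) (y t0) z → z ≠ 0 → b z z < 0) →
  (∀ ξ η, b m1 ξ = 0 → b m2 ξ = 0 → Hd b (x t0) (y t0) ξ → b m1 η = 0 → b m2 η = 0 →
    Hd b (x t0) (y t0) η → ∃ w, x' w = ξ ∧ y' w = η) →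
  ∀ O ∈ 𝓝 t0, ∃ D ⊆ O, IsOpen D ∧ t0 ∈ D ∧ Geo b m1 m2 D x y

/-- **Common neighbours** with a prescribed direction. -/
def StCn : Prop := ∀ (Λ : Type) [AddCommGroup Λ] (B : Λ →+ Λ →+ ℤ) (l1 l2 : Λ)
  (V : Type) [NormedAddCommGroup V] [NormedSpace ℝ V] [FiniteDimensional ℝ V]
  (b : V →ₗ[ℝ] V →ₗ[ℝ] ℝ) (ι : Λ →+ V) (v1 v2 e e0 y0 : Λ) (l m x y : V),
  Lat B l1 l2 → Emb B b ι →
  (∀ z, b (ι l1) z = 0 → b (ι l2) z = 0 → Hd b x y z → z ≠ 0 → b z z < 0) →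
  Pr B l1 l2 e → B e e = 0 → B v1 e = 0 → B v2 e = 0 →
  (∀ a, ∃ k, Pr B l1 l2 k ∧ B (a + k) e = 1 ∧ B (a + k) v1 = -1 ∧ B (a + k) v2 = -1) →
  B e0 e0 = 0 → B e0 y0 ≠ 0 → (∀ g ∈ ({v1, v2, e} : Set Λ), B g e0 = 0 ∧ B g y0 = 0) →
  b l l = 0 → (∀ g ∈ ({v1, v2, e} : Set Λ), b (ι g) l = 0) →
  ¬ (b (ι l1) l = 0 ∧ b (ι l2) l = 0) →
  (∀ g ∈ ({l1, l2, v1, v2, e} : Set Λ), b (ι g) m = 0) → b m l ≠ 0 →
  Appr ι {u | B u u = 0 ∧ B u v1 = -1 ∧ B u v2 = -1 ∧ B u e = 1 ∧ IsCoprime (B l1 u) (B l2 u)} l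

/-- **The local theorem.** -/
def StLoc : Prop := ∀ (Λ : Type) [AddCommGroup Λ] [Countable Λ] (B : Λ →+ Λ →+ ℤ) (l1 l2 : Λ)
  (s : ℤ) (V : Type) [NormedAddCommGroup V] [NormedSpace ℝ V] [FiniteDimensional ℝ V]
  (b : V →ₗ[ℝ] V →ₗ[ℝ] ℝ) (ι : Λ →+ V) (T : Type) [TopologicalSpace T] (D : Set T)
  (x y : T → V), Lat B l1 l2 → Emb B b ι → Geo b (ι l1) (ι l2) D x y →
  (∀ P : T → Λ → Prop, s ≠ 0 → Mv B l1 l2 s b ι D x y P →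
    ∀ t ∈ D, ∀ t' ∈ D, ∀ v v', Node B l1 l2 v → Node B l1 l2 v' → Hd b (x t) (y t) (ι v) →
      Hd b (x t') (y t') (ι v') → P t v → P t' v') ∧
  ∀ v, Node B l1 l2 v → ∀ t ∈ D, ∀ O ∈ 𝓝 t, ∃ t' ∈ D ∩ O, ∃ u, Node B l1 l2 u ∧
    Hd b (x t') (y t') (ι u)

end Vale.Agent.P287T.Ch
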