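import Vale.Agent.P287T.Ch.Defs

/-!
# Lattice vectors are dense in rational subspaces
-/

namespace Vale.Agent.P287T.Ch

open Set Filter Topology Module

variable {Λ : Type} [AddCommGroup Λ] {B : Λ →+ Λ →+ ℤ} {V : Type} [NormedAddCommGroup V]
  [NormedSpace ℝ V] {b : V →ₗ[ℝ] V →ₗ[ℝ] ℝ} {ι : Λ →+ V}

theorem iota_zsmul (n : ℤ) (u : Λ) : ι (n • u) = (n : ℝ) • ι u := by
  rw [map_zsmul, Int.cast_smul_eq_zsmul]

theorem Emb.span_perp (E : Emb B b ι) {G : Set Λ} (hG : G.Finite) :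
    ∀ z : V, (∀ g ∈ G, b (ι g) z = 0) →
      z ∈ Submodule.span ℝ (ι '' {u | ∀ g ∈ G, B g u = 0}) := by
  induction G, hG using Set.Finite.induction_on with
  | empty => intro z _; simp [E.span]
  | @insert g G _ _ ih =>
    intro z hz
    have h0 := ih z fun g' hg' => hz g' (mem_insert_of_mem _ hg')
    by_cases hs : ∃ s0, (∀ g' ∈ G, B g' s0 = 0) ∧ B g s0 ≠ 0
    · obtain ⟨s0, h1, h2⟩ := hs
      have key : ∀ w ∈ Submodule.span ℝ (ι '' {u | ∀ g ∈ G, B g u = 0}),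
          (B g s0 : ℝ) • w - b (ι g) w • ι s0 ∈
            Submodule.span ℝ (ι '' {u | ∀ g' ∈ insert g G, B g' u = 0}) := by
        intro w hw
        induction hw using Submodule.span_induction with
        | mem w hw =>
          obtain ⟨u, hu, rfl⟩ := hw
          refine Submodule.subset_span ⟨B g s0 • u - B g u • s0, fun g' hg' => ?_, ?_⟩
          · rcases hg' with rfl | hg'
            · simp [mul_comm]
            · simp [hu g' hg', h1 g' hg']
          · rw [map_sub, iota_zsmul, iota_zsmul, E.cast]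
        | zero => simp
        | add w w' _ _ a a' =>
          have := add_mem a a'
          rw [map_add, smul_add, add_smul]
          rwa [show (B g s0 : ℝ) • w - b (ι g) w • ι s0 + ((B g s0 : ℝ) • w' - b (ι g) w' • ι s0) =
            (B g s0 : ℝ) • w + (B g s0 : ℝ) • w' - (b (ι g) w • ι s0 + b (ι g) w' • ι s0) by abel]
            at this
        | smul c w _ a =>
          have := Submodule.smul_mem _ c a
          rwa [smul_sub, smul_comm c, smul_smul c, ← smul_eq_mul c, ← (b (ι g)).map_smul] at this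
      have h3 := key z h0
      rw [hz g (mem_insert _ _), zero_smul, sub_zero] at h3
      have h4 : (B g s0 : ℝ) ≠ 0 := by exact_mod_cast h2
      have := Submodule.smul_mem _ (B g s0 : ℝ)⁻¹ h3
      rwa [smul_smul, inv_mul_cancel₀ h4, one_smul] at this
    · refine Submodule.span_mono (image_mono fun u hu g' hg' => ?_) h0
      rcases hg' with rfl | hg'
      · by_contra h; exact hs ⟨u, hu, h⟩
      · exact hu g' hg'

theorem dens_aux (S : AddSubgroup Λ) {z : V} (hz : z ∈ Submodule.span ℝ (ι '' S)) :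
    z ∈ closure {w | ∃ u ∈ S, ∃ N : ℕ, 0 < N ∧ w = (N : ℝ)⁻¹ • ι u} := by
  induction hz using Submodule.span_induction with
  | mem w hw =>
    obtain ⟨u, hu, rfl⟩ := hw
    exact subset_closure ⟨u, hu, 1, one_pos, by simp⟩
  | zero => exact subset_closure ⟨0, zero_mem _, 1, one_pos, by simp⟩
  | add w w' _ _ a a' =>
    refine map_mem_closure₂ continuous_add a a' ?_
    rintro _ ⟨u, hu, N, hN, rfl⟩ _ ⟨u', hu', N', hN', rfl⟩
    refine ⟨(N' : ℤ) • u + (N : ℤ) • u', add_mem (S.zsmul_mem hu _) (S.zsmul_mem hu' _), N * N',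
      Nat.mul_pos hN hN', ?_⟩
    have h1 : (N : ℝ) ≠ 0 := by exact_mod_cast hN.ne'
    have h2 : (N' : ℝ) ≠ 0 := by exact_mod_cast hN'.ne'
    rw [map_add, iota_zsmul, iota_zsmul, smul_add, smul_smul, smul_smul]
    congr 2 <;> push_cast <;> field_simp
  | smul c w _ a =>
    have hc : c ∈ closure (range ((↑) : ℚ → ℝ)) := Rat.denseRange_cast c
    refine map_mem_closure₂ continuous_smul hc a ?_
    rintro _ ⟨q, rfl⟩ _ ⟨u, hu, N, hN, rfl⟩
    refine ⟨q.num • u, S.zsmul_mem hu _, q.den * N, Nat.mul_pos q.pos hN, ?_⟩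
    have h1 : (N : ℝ) ≠ 0 := by exact_mod_cast hN.ne'
    have h2 : (q.den : ℝ) ≠ 0 := by exact_mod_cast q.den_nz
    rw [iota_zsmul, smul_smul, smul_smul, Rat.cast_def]
    congr 1; push_cast; field_simp

/-- The lattice vectors orthogonal to `G` have dense directions. -/
theorem Emb.dens (E : Emb B b ι) {G : Set Λ} (hG : G.Finite) {z : V}
    (hz : ∀ g ∈ G, b (ι g) z = 0) {O : Set V} (hO : O ∈ 𝓝 z) :
    ∃ u, (∀ g ∈ G, B g u = 0) ∧ ∃ c : ℝ, 0 < c ∧ c • ι u ∈ O := by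
  let S : AddSubgroup Λ :=
    { carrier := {u | ∀ g ∈ G, B g u = 0}
      zero_mem' := fun g _ => map_zero _
      add_mem' := fun ha hb g hg => by rw [map_add, ha g hg, hb g hg, add_zero]
      neg_mem' := fun ha g hg => by rw [map_neg, ha g hg, neg_zero] }
  obtain ⟨_, h1, u, hu, N, hN, rfl⟩ :=
    mem_closure_iff_nhds.1 (dens_aux S (E.span_perp hG z hz)) O hO
  exact ⟨u, hu, _, inv_pos.2 (by exact_mod_cast hN), h1⟩

theorem exists_perp [FiniteDimensional ℝ V] (b : V →ₗ[ℝ] V →ₗ[ℝ] ℝ) (L : List V)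
    (h : L.length < finrank ℝ V) : ∃ z, z ≠ 0 ∧ ∀ g ∈ L, b g z = 0 := by
  let f : V →ₗ[ℝ] (Fin L.length → ℝ) := LinearMap.pi fun i => b (L.get i)
  have hk : LinearMap.ker f ≠ ⊥ := LinearMap.ker_ne_bot_of_finrank_lt (by simpa using h)
  obtain ⟨z, hz, h0⟩ := Submodule.exists_mem_ne_zero_of_ne_bot hk
  refine ⟨z, h0, fun g hg => ?_⟩
  obtain ⟨i, rfl⟩ := List.get_of_mem hg
  exact congrFun (LinearMap.mem_ker.1 hz) i

theorem cont_b [FiniteDimensional ℝ V] (b : V →ₗ[ℝ] V →ₗ[ℝ] ℝ) :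
    Continuous fun q : V × V => b q.1 q.2 :=
  (((LinearMap.toContinuousLinearMap (𝕜 := ℝ) (E := V) (F' := ℝ)).toLinearMap ∘ₗ
    b).toContinuousLinearMap).continuous₂

theorem cont_b₂ [FiniteDimensional ℝ V] (b : V →ₗ[ℝ] V →ₗ[ℝ] ℝ) {X : Type*} [TopologicalSpace X]
    {f g : X → V} (hf : Continuous f) (hg : Continuous g) : Continuous fun x => b (f x) (g x) :=
  (cont_b b).comp (hf.prodMk hg)

/-- How `Appr` is used. -/
theorem Appr.ex {S : Set Λ} {l : V} (h : Appr ι S l) {Φ : V × ℝ → Prop}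
    (hΦ : ∀ᶠ q in 𝓝 (l, (0 : ℝ)), Φ q) : ∃ u ∈ S, ∃ ε : ℝ, 0 < ε ∧ Φ (ε • ι u, ε) := by
  rw [nhds_prod_eq, eventually_prod_iff] at hΦ
  obtain ⟨p1, h1, p2, h2, h3⟩ := hΦ
  obtain ⟨δ, hδ, h4⟩ := Metric.eventually_nhds_iff.1 h2
  obtain ⟨u, hu, R, hR, h5⟩ := h _ h1 δ⁻¹
  have h6 : 0 < R := (inv_pos.2 hδ).trans hR
  refine ⟨u, hu, R⁻¹, inv_pos.2 h6, h3 h5 (h4 ?_)⟩
  rw [Real.dist_eq, sub_zero, abs_of_pos (inv_pos.2 h6)]
  exact inv_lt_of_inv_lt₀ hδ hR

end Vale.Agent.P287T.Ch
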