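import Vale.Agent.P287T.Ch.Inst1
import Vale.Agent.P287T.Ch.Conn
import Vale.Agent.P287T.Per.Fin
import Vale.Agent.P287T.Per.Hes

/-!
# The propagation over the space of smooth cubic fourfolds
-/

set_option linter.style.haveILetI false

noncomputable section

namespace Vale.Agent.P287T.Ch

open Set Function Filter Topology Metric Module P291Z P269 P287Q P287Q.Cub P287Q.Zc
  P287T.Cy P287T.Rr P287T.Top P287T.Cl

variable {F F' : S6} {P : ∀ F : S6, Cls F → Prop}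

theorem tr_self (Q : ∀ F : S6, Cls F → Prop) (E : F' = F) {Φ : Per.V → Per.V} (e : Per.Tr F F' Φ)
    (hΦ : ∀ x ≠ 0, Φ x = x) (v : Cls F') : Q F (tr e.φ v) ↔ Q F' v := by
  subst E
  rw [show tr e.φ v = v from Prod.ext rfl (H.map_id (fun x => by
    obtain ⟨y, rfl⟩ : ∃ y, Quo.mk _ y = x := Quot.exists_rep x
    rw [e.φ_mk]
    exact congrArg _ (Subtype.ext (hΦ _ y.2.1))) _)]

/-- Some node is realised. -/
def Re (P : ∀ F : S6, Cls F → Prop) (F : S6) : Prop := Per.Sm F ∧ ∃ v, Top.Node v ∧ P F v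

theorem loc (hp : Per.StPer) (hl : StLoc) (s : Sys P) (h : Per.Sm F) : ∃ D ∈ 𝓝 (0 : T3),
    (∃ t ∈ D, Re P (F + p3 t)) → D ⊆ closure {t | Re P (F + p3 t)} ∧
      ∀ v, Top.Node v → Hdg v → P F v := by
  obtain ⟨r, Φ, σ, η, k⟩ := hp T3 h p3 p3_hom
  obtain ⟨D, h1, h2, h3, h4⟩ := pm_geo k
  haveI := LT_free h.cu
  haveI := LT_fin h.cu
  haveI : Countable (LT F) := (bs h.cu).equivFun.injective.countable
  obtain ⟨l1, l2⟩ := hl (LT F) _ _ _ (-1) VR _ _ T3 D _ _ (lat h.cu) (emb h.cu) h4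
  refine ⟨D, h2.mem_nhds h3, fun ⟨t, ht, _, v', hv, hP⟩ => ?_⟩
  have T := fun t (ht : t ∈ D) => stTr h.cu (k.sm t (h1 ht)).cu (k.tr t (h1 ht))
  let v : LT F := ⟨_, ((T t ht).2.1 v').2 hv.mem⟩
  have nv := (node_iff h.cu v).1 (((T t ht).2.2.2 v').2 hv)
  have key := fun t' ht' u hu hd => l1 _ (by decide) (pm_mv k s h1) t ht t' ht' v u nv hu
    ((hd_io _ _ _).2 ((pm_hdg k (h1 ht) hv.mem).2 (s.hdg (k.sm t (h1 ht)) v' hP))) hd
    ⟨h1 ht, v', rfl, hP⟩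
  refine ⟨fun t' ht' => mem_closure_iff_nhds.2 fun O hO => ?_, fun u hu hd => ?_⟩
  · obtain ⟨t'', ⟨a, b⟩, u, hu, hd⟩ := l2 v nv t' ht' O hO
    obtain ⟨c, u', e, d⟩ := key t'' a u hu hd
    exact ⟨t'', b, k.sm _ c, u', ((T t'' a).2.2.2 u').1 (e ▸ (node_iff _ u).2 hu), d⟩
  · have E : F + p3 0 = F := by rw [map_zero, add_zero]
    obtain ⟨u', rfl⟩ := (T 0 h3).1.2 u
    obtain ⟨c, u'', e, d⟩ := key 0 h3 ⟨_, hu.mem⟩ ((node_iff _ _).1 hu) ((hd_io _ _ _).2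
      ((pm_hdg k (h1 h3) (((T 0 h3).2.1 u').1 hu.mem)).2
        ((tr_self (fun _ => Hdg) E _ k.zero u').1 hd)))
    exact (tr_self P E _ k.zero u').2 ((T 0 h3).1.1 e ▸ d)

theorem chain_of (hp : Per.StPer) (hl : StLoc) : CHAIN := fun P s F h => by
  have key : ∀ t, Per.Sm (p3 t) → t ∈ closure {t | Re P (p3 t)} →
      t ∈ interior (closure {t | Re P (p3 t)}) ∧ ∀ v, Top.Node v → Hdg v → P (p3 t) v :=
    fun t a b => by
      obtain ⟨D, h1, h2⟩ := loc hp hl s a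
      simp only [← map_add] at h2
      have h3 : (fun x => t + x) '' D ∈ 𝓝 t := by
        simpa using (Homeomorph.addLeft t).isOpenMap.image_mem_nhds h1
      obtain ⟨_, ⟨x, h4, rfl⟩, h5⟩ := mem_closure_iff_nhds.1 b _ h3
      obtain ⟨h6, h7⟩ := h2 ⟨x, h4, h5⟩
      refine ⟨mem_interior_iff_mem_nhds.2 (mem_of_superset h3 ?_), h7⟩
      rintro _ ⟨y, hy, rfl⟩
      exact map_mem_closure (f := fun x => t + x) (by fun_prop) (h6 hy) fun _ e => e
  obtain ⟨F0, h0, v0, hv0⟩ := s.base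
  obtain ⟨t0, rfl⟩ := p3_onto F0 h0.hom
  obtain ⟨t, rfl⟩ := p3_onto F h.hom
  exact (key t h (interior_subset (conn_pre.subset_of_closure_inter_subset isOpen_interior
    ⟨t0, h0, (key t0 h0 (subset_closure ⟨h0, v0, hv0⟩)).1⟩
    (fun x a => (key x a.2 (closure_minimal interior_subset isClosed_closure a.1)).1) h))).2

/-- **CHAIN** from the local theorem. -/
theorem chain_loc (hl : StLoc) : CHAIN := chain_of (Per.stPer_of Per.stHes) hl

end Vale.Agent.P287T.Ch
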