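import Vale.Agent.P287T.Cl.Lat3
import Vale.Agent.P287T.Cl.Lat2

/-!
# The real span of the Mukai lattice in coordinates
-/

set_option linter.style.haveILetI false

noncomputable section

namespace Vale.Agent.P287T.Ch

open Set Function Matrix Module P291Z P269 P269.Mono P287Q P287Q.Cub P287Q.Zc
  P287T.Cy P287T.Rr P287T.Top P287T.Cl
open scoped ComplexConjugate

/-- The real coordinate space. -/
abbrev VR : Type := Fin 24 → ℝ

variable {F : S6} (c : Cu F)

/-- A basis of the Mukai lattice. -/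
def bs : Basis (Fin 24) ℤ (LT F) :=
  haveI := LT_free c
  haveI := LT_fin c
  finBasisOfFinrankEq ℤ (LT F) (LT_rank c)

/-- The coordinates of a lattice vector. -/
def io : LT F →+ VR :=
  AddMonoidHom.mk' (fun v i => ((bs c).repr v i : ℝ)) fun _ _ => funext fun _ => by simp

/-- The pairing in coordinates. -/
def bR : VR →ₗ[ℝ] VR →ₗ[ℝ] ℝ :=
  Matrix.toBilin' (Matrix.of fun i j => (bZ c (bs c i) (bs c j) : ℝ))

/-- The class with the given complex coordinates. -/
def jC : (Fin 24 → ℂ) →ₗ[ℂ] MV F := Fintype.linearCombination ℂ fun i => mv F (bs c i).1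

/-- The class with the given real coordinates. -/
def jR (z : VR) : MV F := jC c fun i => z i

/-- The part of degree four. -/
def nR (z : VR) : H (XF F) := (jR c z).2

theorem jR_eq (z : VR) : jR c z = ∑ i, (z i : ℂ) • mv F (bs c i).1 := rfl

theorem nR_eq (z : VR) : nR c z = ∑ i, (z i : ℂ) • (bs c i).1.2 := by
  rw [nR, jR_eq, Prod.snd_sum]; rfl

theorem jR_io (v : LT F) : jR c (io c v) = mv F v.1 := by
  conv_rhs => rw [← (bs c).sum_repr v, AddSubgroup.val_finsetSum, map_sum]
  rw [jR_eq]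
  refine Finset.sum_congr rfl fun i _ => ?_
  rw [AddSubgroup.coe_zsmul, map_zsmul, ← Int.cast_smul_eq_zsmul ℂ]
  exact congrArg (· • _) (Complex.ofReal_intCast _)

theorem nR_io (v : LT F) : nR c (io c v) = v.1.2 := by rw [nR, jR_io]; rfl

theorem bR_mu (z w : VR) : (bR c z w : ℂ) = mu F (jR c z) (jR c w) := by
  simp only [bR, Matrix.toBilin'_apply, jR_eq, map_sum, map_smul, LinearMap.sum_apply,
    LinearMap.smul_apply, mu_mv, ← bZ_cast c, Matrix.of_apply, smul_eq_mul, Finset.mul_sum]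
  push_cast
  rw [Finset.sum_comm]
  exact Finset.sum_congr rfl fun _ _ => Finset.sum_congr rfl fun _ _ => by ring

theorem bR_io (v w : LT F) : bR c (io c v) (io c w) = bZ c v w :=
  Complex.ofReal_injective (by rw [bR_mu, jR_io, jR_io, mu_mv, ← bZ_cast c, Complex.ofReal_intCast])

theorem jR_mem (z : VR) : jR c z ∈ VV F := by
  rw [jR_eq]
  exact sum_mem fun i _ => Submodule.smul_mem _ _ (muk_le c _ (mv_mem_LM.2 (bs c i).2))

theorem nR_deg (z : VR) : H.IsDeg 4 (nR c z) := (jR_mem c z).2.1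

theorem nR_cj (z : VR) : cj (nR c z) = nR c z := by
  rw [nR_eq, map_sum]
  exact Finset.sum_congr rfl fun i _ => by
    rw [LinearMap.map_smulₛₗ, (muk_prim c _ (bs c i).2).2.2, Complex.conj_ofReal]

theorem bR_symm (z w : VR) : bR c z w = bR c w z :=
  Complex.ofReal_injective (by rw [bR_mu, bR_mu, muk_symm c _ (jR_mem c z) _ (jR_mem c w)])

theorem io_bs (i : Fin 24) : io c (bs c i) = Pi.single i 1 := funext fun j => by
  change (((bs c).repr (bs c i) j : ℤ) : ℝ) = _
  rw [Basis.repr_self, Finsupp.single_apply, Pi.single_apply]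
  simp [eq_comm]

theorem exists_dual (i : Fin 24) : ∃ f : VR, ∀ z, bR c z f = z i := by
  obtain ⟨f, hf⟩ := (bL_bij c).2 ((bs c).coord i)
  refine ⟨io c f, fun z => LinearMap.congr_fun (LinearMap.pi_ext (f := (bR c).flip (io c f))
    (g := LinearMap.proj i) fun j t => ?_) z⟩
  rw [show (Pi.single j t : VR) = t • Pi.single j 1 by rw [← Pi.single_smul, smul_eq_mul, mul_one],
    map_smul, map_smul, ← io_bs c, LinearMap.flip_apply, bR_io, bZ_eq, bL_symm, hf]
  rfl

/-- The dual basis. -/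
def du (i : Fin 24) : VR := (exists_dual c i).choose

theorem bR_du (i : Fin 24) (z : VR) : bR c z (du c i) = z i := (exists_dual c i).choose_spec z

theorem bR_ext {z w : VR} (h : ∀ y, bR c y z = bR c y w) : z = w := funext fun i => by
  rw [← bR_du c i z, ← bR_du c i w, bR_symm, h, bR_symm]

theorem emb : Emb (bZ c) (bR c) (io c) where
  symm := bR_symm c
  nd x h := bR_ext c fun y => by rw [bR_symm, h, map_zero]
  cast := bR_io c
  span := eq_top_iff.2 ((Pi.basisFun ℝ (Fin 24)).span_eq ▸ Submodule.span_mono (by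
    rintro _ ⟨i, rfl⟩
    exact ⟨bs c i, by rw [io_bs, Pi.basisFun_apply]⟩))
  dim := by simp

/-- Orthogonal to the roots. -/
def Pp (z : VR) : Prop := bR c (io c (L1 F)) z = 0 ∧ bR c (io c (L2 F)) z = 0

theorem mu_l1 (x : MV F) : mu F (mv F (l1 F)) x = x.1 0 - x.1 1 := by
  simp [mu_apply, mv_apply, l1, dotProduct, Fin.sum_univ_three, al_eis, sub_eq_add_neg]

theorem mu_l2 (x : MV F) : mu F (mv F (l2 F)) x = x.1 1 - x.1 2 := by
  simp [mu_apply, mv_apply, l2, dotProduct, Fin.sum_univ_three, al_eis, sub_eq_add_neg]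

variable {c}

theorem Pp.eq {w : VR} (h : Pp c w) (z : VR) : (bR c z w : ℂ) = -JF F (nR c z * nR c w) := by
  have h1 := bR_mu c (io c (L1 F)) w
  have h2 := bR_mu c (io c (L2 F)) w
  have h3 := (jR_mem c w).1
  rw [jR_io, h.1, L1, mu_l1] at h1
  rw [jR_io, h.2, L2, mu_l2] at h2
  have h4 : (jR c w).1 = 0 := funext fun i => by
    fin_cases i
    · exact show (jR c w).1 0 = 0 by push_cast at h1 h2; linear_combination (h3 - 2 * h1 - h2) / 3
    · exact show (jR c w).1 1 = 0 by push_cast at h1 h2; linear_combination (h3 + h1 - h2) / 3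
    · exact show (jR c w).1 2 = 0 by push_cast at h1 h2; linear_combination (h3 + h1 + 2 * h2) / 3
  rw [bR_mu, mu_apply, h4, dotProduct_zero, zero_sub]
  rfl

variable (c)

theorem exists_parts {y : H (XF F)} (hy : H.IsDeg 4 y) (h : hyp F * y = 0) :
    ∃ ξ η, Pp c ξ ∧ Pp c η ∧ y = nR c ξ + Complex.I • nR c η := by
  have h1 : VV F ≤ LinearMap.range (jC c) := (stLat c).span ▸ Submodule.span_le.2 (by
    rintro _ ⟨v, hv, rfl⟩
    exact ⟨_, jR_io c ⟨v, hv⟩⟩)
  obtain ⟨ζ, e⟩ := h1 (show ((0, y) : MV F) ∈ VV F from ⟨by simp, hy, h⟩)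
  have e' : ((0, y) : MV F) = jR c (fun i => (ζ i).re) + Complex.I • jR c fun i => (ζ i).im := by
    rw [jR, jR, ← map_smul, ← map_add, ← e]
    exact congrArg _ (funext fun i => by simp [mul_comm Complex.I])
  have h2 : ∀ l : LT F, mu F (mv F l.1) (0, y) = 0 → bR c (io c l) (fun i => (ζ i).re) = 0 ∧
      bR c (io c l) (fun i => (ζ i).im) = 0 := fun l k => by
    rw [e', map_add, map_smul, ← jR_io c, ← bR_mu, ← bR_mu] at k
    simpa [Complex.ext_iff] using k
  have k1 := h2 (L1 F) (by rw [L1, mu_l1]; simp)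
  have k2 := h2 (L2 F) (by rw [L2, mu_l2]; simp)
  exact ⟨_, _, ⟨k1.1, k2.1⟩, ⟨k1.2, k2.2⟩, congrArg Prod.snd e'⟩

/-- The vector that represents the real part of `s ∫ (- ∪ y)`. -/
def xv (s : ℂ) (y : H (XF F)) : VR := ∑ i, (s * JF F ((bs c i).1.2 * y)).re • du c i

theorem bR_xv (s : ℂ) (y : H (XF F)) (z : VR) :
    bR c z (xv c s y) = (s * JF F (nR c z * y)).re := by
  simp only [xv, map_sum, map_smul, bR_du, nR_eq, Finset.sum_mul, smul_mul_assoc, smul_eq_mul,
    Finset.mul_sum, Complex.re_sum]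
  exact Finset.sum_congr rfl fun i _ => by rw [mul_left_comm, Complex.re_ofReal_mul, mul_comm]

theorem hd_iff (y : H (XF F)) (z : VR) :
    Hd (bR c) (xv c (-1) y) (xv c Complex.I y) z ↔ JF F (nR c z * y) = 0 := by
  simp [Hd, bR_xv, Complex.ext_iff]

variable {c}

theorem xv_parts {ξ η : VR} (h : Pp c ξ) (h' : Pp c η) :
    xv c (-1) (nR c ξ + Complex.I • nR c η) = ξ ∧
      xv c Complex.I (nR c ξ + Complex.I • nR c η) = η := by
  have : ∀ z, JF F (nR c z * (nR c ξ + Complex.I • nR c η)) =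
      -(bR c z ξ + Complex.I * bR c z η) := fun z => by
    rw [mul_add, mul_smul_comm, map_add, map_smul, h.eq, h'.eq, smul_eq_mul]; ring
  exact ⟨bR_ext c fun z => by simp [bR_xv, this], bR_ext c fun z => by simp [bR_xv, this]⟩

end Vale.Agent.P287T.Ch
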