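import Vale.Agent.P287T.Ch.Defs
import Mathlib.Analysis.Calculus.Implicit
import Mathlib.Analysis.Calculus.ContDiff.RCLike
import Mathlib.Analysis.Calculus.ContDiff.Operations
import Mathlib.Analysis.Calculus.Deriv.Comp
import Mathlib.Analysis.Calculus.Deriv.Mul
import Mathlib.Analysis.Convex.PathConnected
import Mathlib.Analysis.Normed.Module.Convex

/-!
# P287, propagation: the Klein chart of the period domain
-/

namespace Vale.Agent.P287T.Ch

open Set Filter Topology Module Metric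

variable {V : Type} [NormedAddCommGroup V] [NormedSpace ℝ V] (b : V →ₗ[ℝ] V →ₗ[ℝ] ℝ)
  (m1 m2 x0 y0 : V)

/-- The determinant of the pairings with the base plane. -/
def kD (q : V × V) : ℝ := b q.1 x0 * b q.2 y0 - b q.1 y0 * b q.2 x0

/-- The Klein coordinates of the plane spanned by `q.1`, `q.2`. -/
noncomputable def kN (q : V × V) : V × V :=
  ((b x0 x0 / kD b x0 y0 q) • (b q.2 y0 • q.1 - b q.1 y0 • q.2) - x0,
    (b x0 x0 / kD b x0 y0 q) • (b q.1 x0 • q.2 - b q.2 x0 • q.1) - y0)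

/-- The orthogonal complement of `m1`, `m2` and the base plane. -/
def kS : Submodule ℝ V where
  carrier := {z | b m1 z = 0 ∧ b m2 z = 0 ∧ Hd b x0 y0 z}
  zero_mem' := by simp [Hd]
  add_mem' h h' := by simp [Hd, h.1, h.2.1, h.2.2.1, h.2.2.2, h'.1, h'.2.1, h'.2.2.1, h'.2.2.2]
  smul_mem' c _ h := by simp [Hd, h.1, h.2.1, h.2.2.1, h.2.2.2]

variable {b m1 m2 x0 y0} {q : V × V}

theorem kN_hd (hc : b x0 x0 ≠ 0) (hq : kD b x0 y0 q ≠ 0) (z : V) :
    Hd b q.1 q.2 z ↔ Hd b (x0 + (kN b x0 y0 q).1) (y0 + (kN b x0 y0 q).2) z := by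
  simp only [Hd, kN, add_sub_cancel, map_smul, map_sub, smul_eq_mul, mul_eq_zero,
    div_ne_zero hc hq, false_or]
  refine ⟨fun h => by simp [h.1, h.2], fun h => ⟨mul_left_cancel₀ hq ?_, mul_left_cancel₀ hq ?_⟩⟩
  · rw [kD]; linear_combination b q.1 x0 * h.1 + b q.1 y0 * h.2
  · rw [kD]; linear_combination b q.2 x0 * h.1 + b q.2 y0 * h.2

variable (hs : ∀ z w, b z w = b w z) (hc : 0 < b x0 x0) (hy : b y0 y0 = b x0 x0) (hxy : b x0 y0 = 0)
include hs hc hy hxy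

omit hc in
theorem kN_mem (h1 : Hd b x0 y0 m1) (h2 : Hd b x0 y0 m2) (hq : kD b x0 y0 q ≠ 0)
    (k1 : Hd b q.1 q.2 m1) (k2 : Hd b q.1 q.2 m2) :
    (kN b x0 y0 q).1 ∈ kS b m1 m2 x0 y0 ∧ (kN b x0 y0 q).2 ∈ kS b m1 m2 x0 y0 := by
  have h3 := div_mul_cancel₀ (b x0 x0) hq
  have h4 := (hs y0 x0).trans hxy
  generalize hr : b x0 x0 / kD b x0 y0 q = r at h3
  rw [kD] at h3
  refine ⟨⟨?_, ?_, ?_, ?_⟩, ?_, ?_, ?_, ?_⟩ <;>
    simp only [kN, hr, map_sub, map_smul, LinearMap.sub_apply, LinearMap.smul_apply, smul_eq_mul,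
      h1.1, h1.2, h2.1, h2.2, k1.1, k1.2, k2.1, k2.2, hy, hxy, h4]
  all_goals first | ring1 | linear_combination h3

theorem kN_add {ξ η : V} (h1 : Hd b x0 y0 ξ) (h2 : Hd b x0 y0 η) :
    kD b x0 y0 (x0 + ξ, y0 + η) ≠ 0 ∧ kN b x0 y0 (x0 + ξ, y0 + η) = (ξ, η) := by
  have h4 := (hs y0 x0).trans hxy
  have h5 : kD b x0 y0 (x0 + ξ, y0 + η) = b x0 x0 * b x0 x0 := by
    simp [kD, h1.1, h1.2, h2.1, h2.2, hy, hxy]
  refine ⟨h5 ▸ (mul_pos hc hc).ne', ?_⟩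
  rw [kN, h5]
  simp [h1.1, h1.2, h2.1, h2.2, hy, hxy, h4, smul_smul, hc.ne']

theorem kS_neg (hn : ∀ z ∈ kS b m1 m2 x0 y0, z ≠ 0 → b z z < 0) (h1 : Hd b x0 y0 m1)
    (h2 : Hd b x0 y0 m2) {ξ η z : V} (hξ : ξ ∈ kS b m1 m2 x0 y0) (hη : η ∈ kS b m1 m2 x0 y0)
    (h : -b ξ ξ - b η η < b x0 x0) (k1 : b m1 z = 0) (k2 : b m2 z = 0)
    (k : Hd b (x0 + ξ) (y0 + η) z) (h0 : z ≠ 0) : b z z < 0 := by
  have h4 := (hs y0 x0).trans hxy
  obtain ⟨α, hα⟩ : ∃ α, α * b x0 x0 = b z x0 := ⟨_, div_mul_cancel₀ _ hc.ne'⟩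
  obtain ⟨β, hβ⟩ : ∃ β, β * b x0 x0 = b z y0 := ⟨_, div_mul_cancel₀ _ hc.ne'⟩
  obtain ⟨n, rfl⟩ : ∃ n, z = α • x0 + β • y0 + n := ⟨_, (add_sub_cancel _ z).symm⟩
  have h5 : n ∈ kS b m1 m2 x0 y0 := ⟨by simpa [h1.1, h1.2] using k1, by simpa [h2.1, h2.2] using k2,
    by simpa [h4] using hα.symm, by simpa [hxy, hy] using hβ.symm⟩
  have h6 : α * b x0 x0 + b n ξ = 0 := by
    simpa [h4, h5.2.2.1, hs _ ξ, hξ.2.2.1, hξ.2.2.2] using k.1
  have h7 : β * b x0 x0 + b n η = 0 := by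
    simpa [hxy, hy, h5.2.2.2, hs _ η, hη.2.2.1, hη.2.2.2] using k.2
  have h8 : b (α • x0 + β • y0 + n) (α • x0 + β • y0 + n) =
      (α * α + β * β) * b x0 x0 + b n n := by
    simp [h4, hxy, hy, h5.2.2.1, h5.2.2.2, hs x0 n, hs y0 n]
    ring
  have h9 : n ≠ 0 := by
    rintro rfl
    simp only [map_zero, LinearMap.zero_apply, add_zero, mul_eq_zero, hc.ne', or_false] at h6 h7
    exact h0 (by simp [h6, h7])
  have hN := hn n h5 h9
  have cs : ∀ ζ ∈ kS b m1 m2 x0 y0, b n ζ * b n ζ ≤ b n n * b ζ ζ := fun ζ hζ => by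
    have e : b (b n n • ζ - b n ζ • n) (b n n • ζ - b n ζ • n) ≤ 0 := by
      by_cases e : b n n • ζ - b n ζ • n = 0
      · simp [e]
      · exact (hn _ (sub_mem (Submodule.smul_mem _ _ hζ) (Submodule.smul_mem _ _ h5)) e).le
    simp only [map_sub, map_smul, LinearMap.sub_apply, LinearMap.smul_apply, smul_eq_mul,
      hs ζ n] at e
    nlinarith
  have c1 := cs ξ hξ
  have c2 := cs η hη
  rw [eq_neg_of_add_eq_zero_right h6] at c1
  rw [eq_neg_of_add_eq_zero_right h7] at c2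
  rw [h8]
  refine neg_of_mul_neg_right (a := b x0 x0) ?_ hc.le
  nlinarith

omit hs hc hy hxy

theorem kN_sm [FiniteDimensional ℝ V] (q : V × V) : ContDiffAt ℝ 1 (kD b x0 y0) q ∧
    (kD b x0 y0 q ≠ 0 → ContDiffAt ℝ 1 (kN b x0 y0) q) := by
  have h : ∀ v, ContDiff ℝ 1 fun z => b z v := fun v =>
    (LinearMap.toContinuousLinearMap (b.flip v)).contDiff
  have h1 := fun v => ((h v).comp (contDiff_fst (F := V))).contDiffAt (x := q)
  have h2 := fun v => ((h v).comp (contDiff_snd (E := V))).contDiffAt (x := q)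
  have h3 : ContDiffAt ℝ 1 (kD b x0 y0) q := ((h1 _).mul (h2 _)).sub ((h1 _).mul (h2 _))
  exact ⟨h3, fun k => (((contDiffAt_const.div h3 k).smul (((h2 _).smul contDiffAt_fst).sub
    ((h1 _).smul contDiffAt_snd))).sub contDiffAt_const).prodMk
    (((contDiffAt_const.div h3 k).smul (((h1 _).smul contDiffAt_snd).sub
      ((h2 _).smul contDiffAt_fst))).sub contDiffAt_const)⟩

/-- **Klein chart.** -/
theorem stKlein : StKlein := by
  intro V _ _ _ b m1 m2 T _ _ _ x y x' y' t0 hs hx hy hm hc hyy hxy hn ho O hO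
  have := FiniteDimensional.complete ℝ T
  obtain ⟨h1, h2⟩ := hm.self_of_nhds
  obtain ⟨p, hp⟩ : ∃ p : V →L[ℝ] kS b m1 m2 (x t0) (y t0), ∀ z : kS b m1 m2 (x t0) (y t0),
      p z = z := by
    obtain ⟨Q, hQ⟩ := (kS b m1 m2 (x t0) (y t0)).exists_isCompl
    exact ⟨LinearMap.toContinuousLinearMap (Submodule.projectionOnto _ Q hQ),
      Submodule.projectionOnto_apply_left hQ⟩
  have hp' : ∀ z ∈ kS b m1 m2 (x t0) (y t0), (p z : V) = z := fun z hz =>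
    congrArg Subtype.val (hp ⟨z, hz⟩)
  obtain ⟨h3, h4⟩ := kN_add hs hc hyy hxy (ξ := 0) (η := 0) (by simp [Hd]) (by simp [Hd])
  rw [add_zero, add_zero] at h3 h4
  have h5 := ((kN_sm _).2 h3).hasStrictFDerivAt one_ne_zero
  generalize fderiv ℝ (kN b (x t0) (y t0)) (x t0, y t0) = K at h5
  have h6 : ∀ ξ η, Hd b (x t0) (y t0) ξ → Hd b (x t0) (y t0) η → K (ξ, η) = (ξ, η) := by
    intro ξ η k1 k2
    have e1 : HasDerivAt (fun s : ℝ => s • (ξ, η)) (ξ, η) 0 := by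
      simpa using (hasDerivAt_id (0 : ℝ)).smul_const (ξ, η)
    have e2 := h5.hasFDerivAt.comp_hasDerivAt_of_eq 0 (e1.const_add (x t0, y t0)) (by simp)
    refine e2.unique (e1.congr_of_eventuallyEq (.of_forall fun s => ?_))
    exact (kN_add hs hc hyy hxy (ξ := s • ξ) (η := s • η) (by simp [Hd, k1.1, k1.2])
      (by simp [Hd, k2.1, k2.2])).2
  have hA := (p.prodMap p).hasStrictFDerivAt.comp t0 (h5.comp t0 (hx.prodMk hy))
  have hA' : ((p.prodMap p).comp (K.comp (x'.prod y'))).range = ⊤ := by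
    refine eq_top_iff.2 fun u _ => ?_
    obtain ⟨w, e1, e2⟩ := ho u.1 u.2 u.1.2.1 u.1.2.2.1 u.1.2.2.2 u.2.2.1 u.2.2.2.1 u.2.2.2.2
    exact ⟨w, by simp [e1, e2, h6 _ _ u.1.2.2.2 u.2.2.2.2, hp]⟩
  obtain ⟨φ, h7, h8⟩ : ∃ φ : OpenPartialHomeomorph T ((kS b m1 m2 (x t0) (y t0) ×
      kS b m1 m2 (x t0) (y t0)) × ((p.prodMap p).comp (K.comp (x'.prod y'))).ker),
      t0 ∈ φ.source ∧ ∀ t, (φ t).1 = p.prodMap p (kN b (x t0) (y t0) (x t, y t)) :=
    ⟨_, hA.mem_implicitToOpenPartialHomeomorph_source hA', fun _ => rfl⟩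
  have hb : Continuous fun z => b z z :=
    (LinearMap.toContinuousLinearMap ((LinearMap.toContinuousLinearMap (𝕜 := ℝ) (E := V)
      (F' := ℝ)).toLinearMap ∘ₗ b)).continuous.clm_apply continuous_id
  have h9 : ∀ᶠ t in 𝓝 t0, kD b (x t0) (y t0) (x t, y t) ≠ 0 :=
    ((kN_sm _).1.continuousAt.tendsto.comp
      (hx.continuousAt.prodMk hy.continuousAt)).eventually_ne h3
  have h10 : ∀ᶠ u in 𝓝 (φ t0), -b (u.1.1 : V) u.1.1 - b (u.1.2 : V) u.1.2 < b (x t0) (x t0) :=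
    (((hb.comp (by fun_prop)).neg.sub (hb.comp (by fun_prop))).tendsto _).eventually_lt
      tendsto_const_nhds (by
        change -b ((φ t0).1.1 : V) (φ t0).1.1 - b ((φ t0).1.2 : V) (φ t0).1.2 < _
        rw [h8, h4]
        simpa using hc)
  obtain ⟨r, r0, hr⟩ := Metric.eventually_nhds_iff_ball.1 ((h10.and
    (φ.open_target.mem_nhds (φ.map_source h7))).and ((φ.tendsto_symm h7).eventually
      ((hm.and h9).and hO)))
  have g : ∀ t ∈ φ.source ∩ φ ⁻¹' ball (φ t0) r, t ∈ O ∧ Hd b (x t) (y t) m1 ∧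
      Hd b (x t) (y t) m2 ∧ ∀ z, Hd b (x t) (y t) z ↔
        Hd b (x t0 + (φ t).1.1) (y t0 + (φ t).1.2) z := fun t ht => by
    have k := (hr _ ht.2).2
    rw [φ.left_inv ht.1] at k
    obtain ⟨k1, k2⟩ := kN_mem hs hyy hxy h1 h2 k.1.2 k.1.1.1 k.1.1.2
    refine ⟨k.2, k.1.1.1, k.1.1.2, fun z => (kN_hd hc.ne' k.1.2 z).trans ?_⟩
    rw [h8, ← hp' _ k1, ← hp' _ k2]; rfl
  refine ⟨_, fun t ht => (g t ht).1, φ.isOpen_inter_preimage isOpen_ball,
    ⟨h7, mem_ball_self r0⟩, fun t ht => (g t ht).2.1, fun t ht => (g t ht).2.2.1,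
    fun t ht z k1 k2 k => kS_neg hs hc hyy hxy (fun z k => hn z k.1 k.2.1 k.2.2) h1 h2 (φ t).1.1.2
      (φ t).1.2.2 (hr _ ht.2).1.1 k1 k2 (((g t ht).2.2.2 z).1 k), fun t ht O' hO' => ?_,
    fun z => ?_⟩
  · have k := (hr _ ht.2).2.1.2
    rw [φ.left_inv ht.1] at k
    have k1 : Tendsto (fun q => (p.prodMap p (kN b (x t0) (y t0) q), (φ t).2)) (𝓝 (x t, y t))
        (𝓝 (φ t)) := by
      have := ((p.prodMap p).continuous.continuousAt.comp
        ((kN_sm _).2 k).continuousAt).prodMk (continuousAt_const (y := (φ t).2))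
      rwa [ContinuousAt, Function.comp_apply, ← h8] at this
    filter_upwards [k1.eventually (isOpen_ball.mem_nhds ht.2),
      ((φ.tendsto_symm ht.1).comp k1).eventually hO',
      (kN_sm _).1.continuousAt.eventually_ne k] with q k2 k3 k4 k5 k6
    have k7 := (hr _ k2).1.2
    have k8 : _ ∈ φ.source ∩ φ ⁻¹' ball (φ t0) r :=
      ⟨φ.map_target k7, by rwa [mem_preimage, φ.right_inv k7]⟩
    obtain ⟨k9, k10⟩ := kN_mem hs hyy hxy h1 h2 k4 k5 k6
    refine ⟨_, ⟨k8, k3⟩, fun z => ((g _ k8).2.2.2 z).trans (Iff.trans ?_ (kN_hd hc.ne' k4 z).symm)⟩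
    rw [φ.right_inv k7, ← hp' _ k9, ← hp' _ k10]; rfl
  · have k : Convex ℝ (ball (φ t0) r ∩ {u | Hd b (x t0 + u.1.1) (y t0 + u.1.2) z}) := by
      refine (convex_ball _ _).inter fun u hu v hv α β _ _ e => ⟨?_, ?_⟩
      · have k1 := hu.1
        have k2 := hv.1
        simp only [Prod.fst_add, Prod.smul_fst, Submodule.coe_add, Submodule.coe_smul, map_add,
          map_smul, smul_eq_mul] at k1 k2 ⊢
        linear_combination α * k1 + β * k2 - b z (x t0) * e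
      · have k1 := hu.2
        have k2 := hv.2
        simp only [Prod.fst_add, Prod.smul_fst, Prod.snd_add, Prod.smul_snd, Submodule.coe_add,
          Submodule.coe_smul, map_add, map_smul, smul_eq_mul] at k1 k2 ⊢
        linear_combination α * k1 + β * k2 - b z (y t0) * e
    have k1 := k.isPreconnected.image φ.symm
      (φ.continuousOn_symm.mono fun u hu => (hr _ hu.1).1.2)
    refine Eq.subst (Set.ext fun t => ⟨?_, fun ht => ?_⟩) k1
    · rintro ⟨u, hu, rfl⟩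
      have k7 := (hr _ hu.1).1.2
      have k8 : φ.symm u ∈ φ.source ∩ φ ⁻¹' ball (φ t0) r :=
        ⟨φ.map_target k7, by rw [mem_preimage, φ.right_inv k7]; exact hu.1⟩
      exact ⟨k8, ((g _ k8).2.2.2 z).2 (by rw [φ.right_inv k7]; exact hu.2)⟩
    · exact ⟨φ t, ⟨ht.1.2, ((g t ht.1).2.2.2 z).1 ht.2⟩, φ.left_inv ht.1.1⟩

end Vale.Agent.P287T.Ch
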