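import Vale.Agent.P287T.Ch.Inst0
import Vale.Agent.P287T.Ch.Klein

/-!
# The period map of a family of cubics as a chart of the period domain
-/

noncomputable section

namespace Vale.Agent.P287T.Ch

open Set Function Filter Topology Metric Module P291Z P269 P269.Mono P287Q P287Q.Cub P287Q.Zc
  P287T.Cy P287T.Rr P287T.Top P287T.Cl
open scoped ComplexConjugate

variable {F F' : S6}

/-- A real class is of type `(2, 2)` if and only if it is orthogonal to the period. -/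
theorem t22_real (c : Cu F) {s n : H (XF F)} (hs : s ∈ Per.TT F 3 1) (h0 : s ≠ 0)
    (hn : H.IsDeg 4 n) (hc : cj n = n) : n ∈ Per.TT F 2 2 ↔ JF F (n * s) = 0 :=
  (Per.fil_t22 c.per.cubH hs h0 hn).trans ⟨fun k => k.1, fun k => ⟨k, by
    change JF F _ = 0
    rw [← hc, ← cj_mul, J_cj c, k, map_zero]⟩⟩

/-- A point of the period domain. -/
structure PP (σ : H (XF F)) : Prop where
  deg : H.IsDeg 4 σ
  prim : hyp F * σ = 0
  iso : JF F (σ * σ) = 0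
  neg : (JF F (cj σ * σ)).re < 0
  pos : ∀ n, H.IsDeg 4 n → cj n = n → JF F (n * σ) = 0 → n ≠ 0 → 0 < (JF F (n * n)).re

theorem pp_map (c : Cu F) (c' : Cu F') {Φ : Per.V → Per.V} (e : Per.Tr F F' Φ) {s : H (XF F')}
    (hs : s ∈ Per.TT F' 3 1) (h0 : s ≠ 0) : PP (H.map e.φ s) := by
  obtain ⟨h1, h2, h3, h4, -⟩ := Per.stTop c.per c'.per e
  have h2 : ∀ y, JF F (H.map e.φ y) = JF F' y := h2
  have k := c'.per.cubH
  have hd : H.IsDeg 4 s := k.hg.deg 3 1 s hs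
  refine ⟨hd.map _, by rw [← h1, ← map_mul, Per.fil_prim k hs, map_zero], ?_, ?_,
    h3.2.forall.2 fun n k1 k2 k3 k4 => ?_⟩
  · rw [← map_mul, h2]
    exact Per.Top_z k hs hs (by omega)
  · rw [cj_map, ← map_mul, h2, J_symm c' hd]
    exact S_neg31 k.hg c'.per.hr k.n k.h42 k.h11 hs h0
  · rw [cj_map, h3.1.eq_iff] at k2
    rw [← map_mul, h2] at k3 ⊢
    exact J_pos c' ((t22_real c' hs h0 ((h4 4 n).1 k1) k2).2 k3) k2 fun e =>
      k4 (by rw [e, map_zero])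

namespace PP

variable (c : Cu F) {σ : H (XF F)} (h : PP σ)
include h

theorem plane : 0 < bR c (xv c (-1) σ) (xv c (-1) σ) ∧
    bR c (xv c Complex.I σ) (xv c Complex.I σ) = bR c (xv c (-1) σ) (xv c (-1) σ) ∧
      bR c (xv c (-1) σ) (xv c Complex.I σ) = 0 := by
  obtain ⟨ξ, η, h1, h2, rfl⟩ := exists_parts c h.deg h.prim
  have k1 := h.iso
  have k2 := h.neg
  have e : ∀ z {w}, Pp c w → JF F (nR c z * nR c w) = -bR c z w := fun z w k => by
    rw [k.eq, neg_neg]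
  rw [map_add, LinearMap.map_smulₛₗ, nR_cj, nR_cj] at k2
  simp only [add_mul, mul_add, smul_mul_assoc, mul_smul_comm, map_add, map_smul, e _ h1, e _ h2,
    bR_symm c η ξ] at k1 k2
  rw [(xv_parts h1 h2).1, (xv_parts h1 h2).2]
  simp [Complex.ext_iff] at k1 k2
  exact ⟨by linarith [k1.1], by linarith [k1.1], by linarith [k1.2]⟩

theorem negd (z : VR) (h1 : Pp c z) (h2 : JF F (nR c z * σ) = 0) (h0 : z ≠ 0) : bR c z z < 0 := by
  have := h.pos _ (nR_deg c z) (nR_cj c z) h2 fun e => h0 (bR_ext c fun y =>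
    Complex.ofReal_injective (by rw [h1.eq, e, mul_zero, map_zero, map_zero, neg_zero]; rfl))
  have k := congrArg Complex.re (h1.eq z)
  rw [Complex.neg_re, Complex.ofReal_re] at k
  linarith

end PP

theorem xv_der (c : Cu F) {T : Type} [NormedAddCommGroup T] [NormedSpace ℂ T] [NormedSpace ℝ T]
    [IsScalarTower ℝ ℂ T] {σ η : T → H (XF F)} {t : T}
    (h1 : ∀ y, AnalyticAt ℂ (fun t => JF F (y * σ t)) t)
    (h2 : ∀ y w, fderiv ℂ (fun t => JF F (y * σ t)) t w = JF F (y * η w)) (s : ℂ) :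
    ∃ x' : T →L[ℝ] VR, HasStrictFDerivAt (fun t => xv c s (σ t)) x' t ∧
      ∀ w, x' w = xv c s (η w) :=
  ⟨_, HasStrictFDerivAt.fun_sum fun i _ => (Complex.reCLM.hasStrictFDerivAt.comp t
    (((h1 (bs c i).1.2).hasStrictFDerivAt.const_mul s).restrictScalars ℝ)).smul_const (du c i),
    fun w => by simp [xv, h2]⟩

theorem hd_io (c : Cu F) (y : H (XF F)) (v : LT F) :
    Hd (bR c) (xv c (-1) y) (xv c Complex.I y) (io c v) ↔ JF F (v.1.2 * y) = 0 := by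
  rw [hd_iff, nR_io]

variable {h : Per.Sm F} {r : ℝ} {Φ : T3 → Per.V → Per.V} {σ : T3 → H (XF F)}
  {η : T3 → T3 →ₗ[ℂ] H (XF F)} (k : Per.PM h p3 r Φ σ η)
include k

theorem pm_pp {t : T3} (ht : t ∈ ball 0 r) : PP (σ t) := by
  obtain ⟨s, h1, h2, e⟩ := k.om t ht
  exact e ▸ pp_map h.cu (k.sm t ht).cu (k.tr t ht) h1 h2

theorem pm_hdg {t : T3} (ht : t ∈ ball 0 r) {v : Cls (F + p3 t)} (hv : v ∈ LT (F + p3 t)) :
    JF F ((tr (k.tr t ht).φ v).2 * σ t) = 0 ↔ Hdg v := by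
  obtain ⟨s, h1, h2, e⟩ := k.om t ht
  have h3 := muk_prim (k.sm t ht).cu v hv
  rw [Hdg, t22_real (k.sm t ht).cu h1 h2 h3.1 h3.2.2, e, tr, ← map_mul]
  exact (Per.stTop h (k.sm t ht) (k.tr t ht)).2.1 _ ▸ Iff.rfl

/-- **The chart.** -/
theorem pm_geo : ∃ D ⊆ ball (0 : T3) r, IsOpen D ∧ 0 ∈ D ∧
    Geo (bR h.cu) (io h.cu (L1 F)) (io h.cu (L2 F)) D (fun t => xv h.cu (-1) (σ t))
      fun t => xv h.cu Complex.I (σ t) := by
  have h0 : (0 : T3) ∈ ball 0 r := mem_ball_self k.pos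
  obtain ⟨x', h1, h2⟩ := xv_der h.cu (fun y => k.an y 0 h0) (fun y => k.der y 0 h0) (-1)
  obtain ⟨y', h3, h4⟩ := xv_der h.cu (fun y => k.an y 0 h0) (fun y => k.der y 0 h0) Complex.I
  obtain ⟨h5, h6, h7⟩ := (pm_pp k h0).plane h.cu
  refine stKlein VR _ _ _ T3 _ _ x' y' 0 (bR_symm _) h1 h3 (Eventually.of_forall fun t =>
    ⟨(hd_io _ _ _).2 (by simp [L1, l1]), (hd_io _ _ _).2 (by simp [L2, l2])⟩) h5 h6 h7
    (fun z a b d => (pm_pp k h0).negd _ z ⟨a, b⟩ ((hd_iff _ _ _).1 d))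
    (fun ξ ζ a b d a' b' d' => ?_) _ (ball_mem_nhds _ k.pos)
  obtain ⟨w, e⟩ := k.onto p3_onto 0 h0 (nR h.cu ξ + Complex.I • nR h.cu ζ)
    ((H.deg _ 4).add_mem (nR_deg _ ξ) ((H.deg _ 4).smul_mem _ (nR_deg _ ζ)))
    (by rw [mul_add, mul_smul_comm, nR, nR, (jR_mem _ ξ).2.2, (jR_mem _ ζ).2.2, smul_zero,
      add_zero])
    (by rw [J_eq, add_mul, smul_mul_assoc, map_add, map_smul, (hd_iff _ _ _).1 d,
      (hd_iff _ _ _).1 d', smul_zero, add_zero])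
  exact ⟨w, by rw [h2, h4, e]; exact xv_parts ⟨a, b⟩ ⟨a', b'⟩⟩

variable {P : ∀ F : S6, Cls F → Prop}

/-- **The moves.** -/
theorem pm_mv (s : Sys P) {D : Set T3} (hD : D ⊆ ball 0 r) :
    Mv (bZ h.cu) (L1 F) (L2 F) (-1) (bR h.cu) (io h.cu) D (fun t => xv h.cu (-1) (σ t))
      (fun t => xv h.cu Complex.I (σ t)) fun t v => At P k v.1 t where
  oc v hv t ht _ := by
    have hv := (node_iff _ v).2 hv
    by_cases e : At P k v.1 t
    · exact (s.opn k v.1 hv t e).mono fun t' a _ b => iff_of_true e (a ((hd_io _ _ _).1 b))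
    · refine (not_frequently.1 fun a => ?_).mono fun t' a _ _ => iff_of_false e a
      obtain ⟨u, b, d⟩ := exists_seq_forall_of_frequently a
      exact e (s.cls k v.1 hv u t (hD ht) b d)
  sw t ht o n a ho hn hg := by
    rintro ⟨ht', o', e, hP⟩
    obtain ⟨h1, h2, h3, h4⟩ := stTr h.cu (k.sm t ht').cu (k.tr t ht')
    obtain ⟨n', e'⟩ := h1.2 n.1
    have no := (h4 o').1 (e ▸ (node_iff _ o).2 a.no)
    have nn := (h4 n').1 (e' ▸ (node_iff _ n).2 a.nn)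
    have po : Pq o'.1 _ _ := congrArg Prod.fst e ▸ pq_bZ h.cu o
    have pn : Pq n'.1 _ _ := congrArg Prod.fst e' ▸ pq_bZ h.cu n
    refine ⟨ht', n', e', s.sw (k.sm t ht') o' n' ⟨no, nn,
      (pm_hdg k ht' no.mem).1 (e ▸ (hd_io _ _ _).1 ho),
      (pm_hdg k ht' nn.mem).1 (e' ▸ (hd_io _ _ _).1 hn), ?_, fun w hw b => ?_,
      ⟨_, _, _, _, po, pn, a.far⟩, ?_⟩ hP⟩
    · rw [← h3, e, e', ← bZ_cast h.cu, a.on, Int.cast_neg, Int.cast_one]
    · obtain ⟨r1, r2, j, z, d⟩ := hg ⟨_, (h2 w).2 hw⟩ ((hd_io _ _ _).2 ((pm_hdg k ht' hw).2 b))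
      refine (tr_In2 h1.1 o' n' w).1 ⟨r1, r2, j, z, ?_⟩
      rw [e, e']
      exact congrArg Subtype.val d
    · rw [pq_im po pn]
      have := a.ori
      rw [dt] at this
      exact mul_neg_of_pos_of_neg (by positivity) (Int.cast_lt_zero.2 (by linarith))
  rot t _ v _ _ := by
    rintro ⟨ht', v', e, hP⟩
    exact ⟨ht', _, by rw [rho_eq, ← e]; rfl, s.rot (k.sm t ht') v' hP⟩

end Vale.Agent.P287T.Ch
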