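import Vale.Agent.P287T.Ch.Defs

/-!
# Euclid's algorithm on two hyperbolic planes
-/

namespace Vale.Agent.P287T.Ch

variable {Λ : Type} [AddCommGroup Λ] {B : Λ →+ Λ →+ ℤ}

/-- `g` is orthogonal to four vectors. -/
def O4 (B : Λ →+ Λ →+ ℤ) (e1 f1 e2 f2 g : Λ) : Prop :=
  B g e1 = 0 ∧ B g f1 = 0 ∧ B g e2 = 0 ∧ B g f2 = 0

/-- The conclusion of the algorithm. -/
def SmG (B : Λ →+ Λ →+ ℤ) (x e1 f1 e2 f2 : Λ) : Prop :=
  ∃ e1' f1' e2' f2', UU B e1' f1' e2' f2' ∧ B x e2' = 0 ∧ B x f2' = 0 ∧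
    ∀ g, O4 B e1 f1 e2 f2 g → O4 B e1' f1' e2' f2' g

variable {x e1 f1 e2 f2 : Λ}

theorem SmG.of {a1 b1 a2 b2 : Λ} (h : SmG B x a1 b1 a2 b2)
    (k : ∀ g, O4 B e1 f1 e2 f2 g → O4 B a1 b1 a2 b2 g) : SmG B x e1 f1 e2 f2 := by
  obtain ⟨c1, d1, c2, d2, h1, h2, h3, h4⟩ := h
  exact ⟨c1, d1, c2, d2, h1, h2, h3, fun g hg => h4 g (k g hg)⟩

theorem Hy.swap (hs : ∀ x y, B x y = B y x) {e f : Λ} (h : Hy B e f) : Hy B f e :=
  ⟨h.ff, h.ee, (hs _ _).trans h.ef⟩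

theorem UU.swap (hs : ∀ x y, B x y = B y x) (h : UU B e1 f1 e2 f2) : UU B e2 f2 e1 f1 :=
  ⟨h.u2, h.u1, (hs _ _).trans h.ee, (hs _ _).trans h.fe, (hs _ _).trans h.ef, (hs _ _).trans h.ff⟩

theorem UU.flip (hs : ∀ x y, B x y = B y x) (h : UU B e1 f1 e2 f2) : UU B e1 f1 f2 e2 :=
  ⟨h.u1, h.u2.swap hs, h.ef, h.ee, h.ff, h.fe⟩

theorem UU.move (hs : ∀ x y, B x y = B y x) (h : UU B e1 f1 e2 f2) (n : ℤ) :
    UU B e1 (f1 - n • f2) (e2 + n • e1) f2 := by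
  have a1 := h.u1.ee; have a2 := h.u1.ff; have a3 := h.u1.ef
  have b1 := h.u2.ee; have b2 := h.u2.ff; have b3 := h.u2.ef
  have c1 := h.ee; have c2 := h.ef; have c3 := h.fe; have c4 := h.ff
  have a3' := (hs _ _).trans a3; have b3' := (hs _ _).trans b3
  have c1' := (hs _ _).trans c1; have c2' := (hs _ _).trans c2
  have c3' := (hs _ _).trans c3; have c4' := (hs _ _).trans c4
  refine ⟨⟨a1, ?_, ?_⟩, ⟨?_, b2, ?_⟩, ?_, c2, ?_, ?_⟩ <;>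
    simp [map_add, map_sub, map_zsmul, *]

theorem o4_move (n : ℤ) (g : Λ) (h : O4 B e1 f1 e2 f2 g) :
    O4 B e1 (f1 - n • f2) (e2 + n • e1) f2 g := by
  obtain ⟨h1, h2, h3, h4⟩ := h
  refine ⟨h1, ?_, ?_, h4⟩ <;> simp [map_add, map_sub, map_zsmul, *]

theorem smg_ne (hs : ∀ x y, B x y = B y x) (n : ℕ) : ∀ {e1 f1 e2 f2 : Λ}, UU B e1 f1 e2 f2 →
    (B x e1).natAbs = n → B x e1 ≠ 0 → SmG B x e1 f1 e2 f2 := by
  induction n using Nat.strong_induction_on with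
  | _ n ih =>
  have key : ∀ {e1 f1 e2 f2 : Λ}, UU B e1 f1 e2 f2 → (B x e1).natAbs = n → B x e1 ≠ 0 →
      ¬ B x e1 ∣ B x e2 → SmG B x e1 f1 e2 f2 := by
    intro e1 f1 e2 f2 h hn h0 hd
    have e : B x (e2 + (-(B x e2 / B x e1)) • e1) = B x e2 % B x e1 := by
      rw [map_add, map_zsmul, Int.emod_def, smul_eq_mul]; ring
    have h1 := (h.move hs (-(B x e2 / B x e1))).swap hs
    refine (ih _ ?_ h1 rfl ?_).of fun g hg => ?_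
    · rw [e, ← hn]
      exact Int.natAbs_lt_natAbs_of_nonneg_of_lt (Int.emod_nonneg _ h0) (Int.emod_lt_abs _ h0) |>.trans_eq
        (Int.natAbs_abs _)
    · rw [e]; exact fun k => hd (Int.dvd_of_emod_eq_zero k)
    · obtain ⟨k1, k2, k3, k4⟩ := o4_move (-(B x e2 / B x e1)) g hg
      exact ⟨k3, k4, k1, k2⟩
  intro e1 f1 e2 f2 h hn h0
  by_cases hc : B x e1 ∣ B x e2
  · by_cases hd : B x e1 ∣ B x f2
    · obtain ⟨c, hc⟩ := hc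
      obtain ⟨d, hd⟩ := hd
      refine ⟨_, _, _, _, (((h.move hs (-c)).flip hs).move hs (-d)), ?_, ?_, fun g hg => ?_⟩
      · rw [map_add, map_zsmul, hd, smul_eq_mul]; ring
      · rw [map_add, map_zsmul, hc, smul_eq_mul]; ring
      · obtain ⟨k1, k2, k3, k4⟩ := o4_move (-c) g hg
        exact o4_move (-d) g ⟨k1, k2, k4, k3⟩
    · exact (key (h.flip hs) hn h0 hd).of fun g hg => ⟨hg.1, hg.2.1, hg.2.2.2, hg.2.2.1⟩
  · exact key h hn h0 hc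

/-- **Euclid**: one of two hyperbolic planes can be made orthogonal to a given vector. -/
theorem smith (hs : ∀ x y, B x y = B y x) (h : UU B e1 f1 e2 f2) (x : Λ) :
    ∃ e1' f1' e2' f2', UU B e1' f1' e2' f2' ∧ B x e2' = 0 ∧ B x f2' = 0 ∧
      ∀ g, B g e1 = 0 ∧ B g f1 = 0 ∧ B g e2 = 0 ∧ B g f2 = 0 →
        B g e1' = 0 ∧ B g f1' = 0 ∧ B g e2' = 0 ∧ B g f2' = 0 := by
  change SmG B x e1 f1 e2 f2
  by_cases hc : B x e2 = 0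
  · by_cases hd : B x f2 = 0
    · exact ⟨_, _, _, _, h, hc, hd, fun _ hg => hg⟩
    · exact (smg_ne hs _ ((h.flip hs).swap hs) rfl hd).of
        fun g hg => ⟨hg.2.2.2, hg.2.2.1, hg.1, hg.2.1⟩
  · exact (smg_ne hs _ (h.swap hs) rfl hc).of fun g hg => ⟨hg.2.2.1, hg.2.2.2, hg.1, hg.2.1⟩

end Vale.Agent.P287T.Ch
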