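import Vale.Agent.P287T.Ch.Cn
import Vale.Agent.P287T.Ch.Sm

/-!
# The directions of the two neighbours
-/

namespace Vale.Agent.P287T.Ch

open Set Filter Topology Module Vale.Agent.P287T.Sw

variable {Λ : Type} [AddCommGroup Λ] {B : Λ →+ Λ →+ ℤ} {l1 l2 : Λ} {V : Type}
  [NormedAddCommGroup V] [NormedSpace ℝ V] {b : V →ₗ[ℝ] V →ₗ[ℝ] ℝ} {ι : Λ →+ V}

/-- The real version of `ip3`. -/
def ipR (p1 p2 q1 q2 : ℝ) : ℝ := 2 * p1 * q1 + p1 * q2 + p2 * q1 + 2 * p2 * q2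

theorem ip3_cast (p1 p2 q1 q2 : ℤ) : (ip3 p1 p2 q1 q2 : ℝ) = ipR p1 p2 q1 q2 := by
  simp [ip3, ipR]

theorem far_big {p1 p2 q1 q2 : ℤ} (h : Far p1 p2 q1 q2) : 27 ≤ ip3 q1 q2 q1 q2 := by
  have a := h.r1
  have c := h.r2
  have d := h.r3
  have e : ∀ z : ℤ, 3 ≤ |z| → 9 ≤ z ^ 2 := fun z hz => by rw [← sq_abs]; nlinarith
  have := e _ a
  have := e _ c
  have := e _ d
  unfold ip3
  nlinarith

theorem far_of {p1 p2 q1 q2 : ℤ} {ε : ℝ} (hε : 0 < ε)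
    (g1 : 6 * ipR (ε * q1) (ε * q2) (ε * q1) (ε * q2) < ipR p1 p2 p1 p2 *
      ipR (ε * q1) (ε * q2) (ε * q1) (ε * q2) - (3 * ε + ipR p1 p2 (ε * q1) (ε * q2)) ^ 2)
    (g2 : 24 * ipR p1 p2 p1 p2 * ε ^ 2 < ipR p1 p2 p1 p2 *
      ipR (ε * q1) (ε * q2) (ε * q1) (ε * q2) - (3 * ε + ipR p1 p2 (ε * q1) (ε * q2)) ^ 2)
    (r1 : 3 * ε < |ε * q1|) (r2 : 3 * ε < |ε * q2|) (r3 : 3 * ε < |ε * q1 + ε * q2|) :
    Far p1 p2 q1 q2 := by
  have e : ipR p1 p2 p1 p2 * ipR (ε * q1) (ε * q2) (ε * q1) (ε * q2) -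
      (3 * ε + ipR p1 p2 (ε * q1) (ε * q2)) ^ 2 = (gram9 p1 p2 q1 q2 : ℝ) * ε ^ 2 := by
    simp only [gram9, ipR, ip3]; push_cast; ring
  have e' : 6 * ipR (ε * q1) (ε * q2) (ε * q1) (ε * q2) =
      ((6 * ip3 q1 q2 q1 q2 : ℤ) : ℝ) * ε ^ 2 := by
    simp only [ipR, ip3]; push_cast; ring
  have h2 : 0 < ε ^ 2 := by positivity
  have r : ∀ z : ℤ, 3 * ε < |ε * z| → 3 ≤ |z| := fun z hz => by
    rw [abs_mul, abs_of_pos hε, mul_comm ε] at hz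
    exact_mod_cast (lt_of_mul_lt_mul_right hz hε.le).le
  rw [e, e'] at g1
  rw [e, ← ip3_cast] at g2
  refine ⟨by exact_mod_cast lt_of_mul_lt_mul_right g1 h2.le,
    by exact_mod_cast (lt_of_mul_lt_mul_right g2 h2.le).le, r _ r1, r _ r2, r _ ?_⟩
  push_cast
  rwa [mul_add]

theorem node_dir {p1 p2 : ℤ} (hc : IsCoprime p1 p2) (hb : 14 ≤ ip3 p1 p2 p1 p2) :
    2 * p2 + p1 ≠ 0 ∧ p2 + 2 * p1 ≠ 0 ∧ p2 - p1 ≠ 0 := by
  obtain ⟨A, C, h⟩ := hc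
  unfold ip3 at hb
  refine ⟨fun k => ?_, fun k => ?_, fun k => ?_⟩
  · obtain rfl : p1 = -2 * p2 := by omega
    have : p2 * (C - 2 * A) = 1 := by linear_combination h
    rcases Int.eq_one_or_neg_one_of_mul_eq_one this with rfl | rfl <;> omega
  · obtain rfl : p2 = -2 * p1 := by omega
    have : p1 * (A - 2 * C) = 1 := by linear_combination h
    rcases Int.eq_one_or_neg_one_of_mul_eq_one this with rfl | rfl <;> omega
  · obtain rfl : p2 = p1 := by omega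
    have : p2 * (A + C) = 1 := by linear_combination h
    rcases Int.eq_one_or_neg_one_of_mul_eq_one this with rfl | rfl <;> omega

theorem min3 {a c d : ℤ} (h : a + c + d = 0) (h1 : a ≤ c) (h2 : a ≤ d) :
    a ≤ 0 ∧ a ^ 2 + c ^ 2 + d ^ 2 ≤ 6 * a ^ 2 := by
  obtain rfl : d = -a - c := by omega
  refine ⟨by omega, ?_⟩
  nlinarith [mul_nonneg (sub_nonneg.2 h1) (show 0 ≤ -c - 2 * a by omega)]

variable [FiniteDimensional ℝ V]

theorem far_ev (E : Emb B b ι) (l1 l2 : Λ) {p1 p2 : ℤ} {l : V}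
    (h : 6 * ipR (b (ι l1) l) (b (ι l2) l) (b (ι l1) l) (b (ι l2) l) <
      ipR p1 p2 p1 p2 * ipR (b (ι l1) l) (b (ι l2) l) (b (ι l1) l) (b (ι l2) l) -
        ipR p1 p2 (b (ι l1) l) (b (ι l2) l) ^ 2)
    (h1 : b (ι l1) l ≠ 0) (h2 : b (ι l2) l ≠ 0) (h3 : b (ι l1) l + b (ι l2) l ≠ 0) :
    ∀ᶠ q in 𝓝 (l, (0 : ℝ)), ∀ u, 0 < q.2 → q.1 = q.2 • ι u → Far p1 p2 (B l1 u) (B l2 u) := by
  have c1 : Continuous fun q : V × ℝ => b (ι l1) q.1 := cont_b₂ b continuous_const continuous_fst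
  have c2 : Continuous fun q : V × ℝ => b (ι l2) q.1 := cont_b₂ b continuous_const continuous_fst
  have h0 : 0 ≤ ipR (b (ι l1) l) (b (ι l2) l) (b (ι l1) l) (b (ι l2) l) := by
    unfold ipR; nlinarith [sq_nonneg (b (ι l1) l + b (ι l2) l), sq_nonneg (b (ι l1) l), sq_nonneg (b (ι l2) l)]
  have a1 : ∀ᶠ q : V × ℝ in 𝓝 (l, (0 : ℝ)),
      6 * ipR (b (ι l1) q.1) (b (ι l2) q.1) (b (ι l1) q.1) (b (ι l2) q.1) <
      ipR p1 p2 p1 p2 * ipR (b (ι l1) q.1) (b (ι l2) q.1) (b (ι l1) q.1) (b (ι l2) q.1) -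
        (3 * q.2 + ipR p1 p2 (b (ι l1) q.1) (b (ι l2) q.1)) ^ 2 :=
    ContinuousAt.eventually_lt (by unfold ipR; fun_prop) (by unfold ipR; fun_prop) (by simpa using h)
  have a2 : ∀ᶠ q : V × ℝ in 𝓝 (l, (0 : ℝ)), 24 * ipR p1 p2 p1 p2 * q.2 ^ 2 <
      ipR p1 p2 p1 p2 * ipR (b (ι l1) q.1) (b (ι l2) q.1) (b (ι l1) q.1) (b (ι l2) q.1) -
        (3 * q.2 + ipR p1 p2 (b (ι l1) q.1) (b (ι l2) q.1)) ^ 2 :=
    ContinuousAt.eventually_lt (by unfold ipR; fun_prop) (by unfold ipR; fun_prop)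
      (by simp only [ne_eq, OfNat.ofNat_ne_zero, not_false_eq_true, zero_pow, mul_zero, zero_add]
          linarith)
  have a3 : ∀ᶠ q : V × ℝ in 𝓝 (l, (0 : ℝ)), 3 * q.2 < |b (ι l1) q.1| :=
    ContinuousAt.eventually_lt (by fun_prop) (by fun_prop) (by simpa using h1)
  have a4 : ∀ᶠ q : V × ℝ in 𝓝 (l, (0 : ℝ)), 3 * q.2 < |b (ι l2) q.1| :=
    ContinuousAt.eventually_lt (by fun_prop) (by fun_prop) (by simpa using h2)
  have a5 : ∀ᶠ q : V × ℝ in 𝓝 (l, (0 : ℝ)), 3 * q.2 < |b (ι l1) q.1 + b (ι l2) q.1| :=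
    ContinuousAt.eventually_lt (by fun_prop) (by fun_prop) (by simpa using h3)
  filter_upwards [a1, a2, a3, a4, a5] with q g1 g2 r1 r2 r3 u hε hq
  simp only [hq, map_smul, smul_eq_mul, E.cast] at g1 g2 r1 r2 r3
  exact far_of hε g1 g2 r1 r2 r3

theorem dirn (E : Emb B b ι) {m1 m2 x y : V}
    (hneg : ∀ z, b m1 z = 0 → b m2 z = 0 → Hd b x y z → z ≠ 0 → b z z < 0) (Lg : List V)
    (hL : Lg.length < 12) {w : V} (hw : 0 < b w w)
    (hk : ∀ ξ, (∀ g ∈ m1 :: m2 :: x :: y :: Lg, b g ξ = 0) → b w ξ = 0) :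
    ∃ ξ, (∀ g ∈ m1 :: m2 :: x :: y :: Lg, b g ξ = 0) ∧ b (w + ξ) (w + ξ) = 0 ∧
      b (w + ξ) ξ ≠ 0 := by
  obtain ⟨z, z0, hz⟩ := exists_perp b (m1 :: m2 :: x :: y :: Lg)
    (lt_of_lt_of_le (by simp; omega) E.dim)
  have z1 := hneg z (hz _ (by simp)) (hz _ (by simp))
    ⟨by rw [E.symm]; exact hz _ (by simp), by rw [E.symm]; exact hz _ (by simp)⟩ z0
  have h0 := hk z hz
  have h1 : √(b w w / -b z z) * √(b w w / -b z z) * b z z = -b w w := by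
    rw [Real.mul_self_sqrt (div_pos hw (neg_pos.2 z1)).le]
    have := z1.ne
    field_simp
  refine ⟨√(b w w / -b z z) • z, fun g hg => by simp [hz g hg], ?_, ?_⟩
  · simp only [map_add, map_smul, LinearMap.add_apply, LinearMap.smul_apply, smul_eq_mul, h0,
      E.symm z w]
    linear_combination h1
  · simp only [map_add, map_smul, LinearMap.add_apply, LinearMap.smul_apply, smul_eq_mul, h0]
    intro k
    have : b w w = 0 := by linear_combination h1 - k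
    exact hw.ne' this

/-- The set of common neighbours. -/
def Nb (B : Λ →+ Λ →+ ℤ) (l1 l2 v1 v2 e : Λ) : Set Λ :=
  {u | B u u = 0 ∧ B u v1 = -1 ∧ B u v2 = -1 ∧ B u e = 1 ∧ IsCoprime (B l1 u) (B l2 u)}

theorem stepA (L : Lat B l1 l2) (E : Emb B b ι) {v : Λ} (hv : Node B l1 l2 v) (v' : Λ)
    {x y x' y' : V} {s : ℝ} (hs0 : s ≠ 0)
    (hneg : ∀ z, b (ι l1) z = 0 → b (ι l2) z = 0 → Hd b x y z → z ≠ 0 → b z z < 0)
    (k1 : Hd b x y (ι l1)) (k2 : Hd b x y (ι l2)) (k1' : Hd b x' y' (ι l1))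
    (k2' : Hd b x' y' (ι l2)) :
    ∃ e l ξ, Pr B l1 l2 e ∧ B v e = 0 ∧ B v' e = 0 ∧ Hd b x y l ∧ Hd b x' y' l ∧
      (∀ g ∈ ({l1, l2, v, v'} : Set Λ), b (ι g) ξ = 0) ∧ b l ξ ≠ 0 ∧
      b (ι l1) l = -s * (2 * B l2 v + B l1 v) ∧ b (ι l2) l = s * (B l2 v + 2 * B l1 v) ∧
      3 * b (ι v') l = ipR (B l1 v') (B l2 v') (b (ι l1) l) (b (ι l2) l) ∧
      Appr ι (Nb B l1 l2 v v e) l := by
  have hs := L.symm
  obtain ⟨e1, f1, e2, f2, hU, hG⟩ := L.uu v hv.iso hv.cop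
  obtain ⟨e1, f1, e, f, hU, a1, -, hG'⟩ := smith hs hU v'
  obtain ⟨p1, p2, p3, p4⟩ := hG' l1 (hG l1 (by simp))
  obtain ⟨q1, q2, q3, q4⟩ := hG' l2 (hG l2 (by simp))
  obtain ⟨r1, r2, r3, r4⟩ := hG' v (hG v (by simp))
  have hw : ∀ z, b ((-s * B l2 v) • ι l1 + (s * B l1 v) • ι l2) z =
      -s * B l2 v * b (ι l1) z + s * B l1 v * b (ι l2) z := fun z => by simp
  have w1 : b (ι l1) ((-s * B l2 v) • ι l1 + (s * B l1 v) • ι l2) =
      -s * (2 * B l2 v + B l1 v) := by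
    rw [E.symm, hw, E.cast, E.cast, L.h11, hs l2 l1, L.h12]; push_cast; ring
  have w2 : b (ι l2) ((-s * B l2 v) • ι l1 + (s * B l1 v) • ι l2) = s * (B l2 v + 2 * B l1 v) := by
    rw [E.symm, hw, E.cast, E.cast, L.h22, L.h12]; push_cast; ring
  have hb : (14 : ℝ) ≤ ipR (B l1 v) (B l2 v) (B l1 v) (B l2 v) := by
    rw [← ip3_cast]; exact_mod_cast hv.big
  obtain ⟨ξ, b1, b2, b3⟩ := dirn E hneg [x', y', ι v, ι v', ι e] (by simp)
    (w := (-s * B l2 v) • ι l1 + (s * B l1 v) • ι l2)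
    (by
      rw [hw, w1, w2]
      have : 0 < s ^ 2 * ipR (B l1 v) (B l2 v) (B l1 v) (B l2 v) := by positivity
      unfold ipR at this
      linarith)
    (fun ξ h => by rw [hw, h (ι l1) (by simp), h (ι l2) (by simp)]; simp)
  have hd : ∀ x y, Hd b x y (ι l1) → Hd b x y (ι l2) → b x ξ = 0 → b y ξ = 0 →
      Hd b x y ((-s * B l2 v) • ι l1 + (s * B l1 v) • ι l2 + ξ) := fun x y h1 h2 h3 h4 =>
    ⟨by simp [h1.1, h2.1, E.symm ξ x, h3], by simp [h1.2, h2.2, E.symm ξ y, h4]⟩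
  have c1 : b (ι l1) ((-s * B l2 v) • ι l1 + (s * B l1 v) • ι l2 + ξ) =
      -s * (2 * B l2 v + B l1 v) := by rw [map_add, w1, b1 _ (by simp), add_zero]
  have c2 : b (ι l2) ((-s * B l2 v) • ι l1 + (s * B l1 v) • ι l2 + ξ) =
      s * (B l2 v + 2 * B l1 v) := by rw [map_add, w2, b1 _ (by simp), add_zero]
  refine ⟨e, _, ξ, ⟨p3, q3⟩, r3, a1, hd _ _ k1 k2 (b1 _ (by simp)) (b1 _ (by simp)),
    hd _ _ k1' k2' (b1 _ (by simp)) (b1 _ (by simp)), ?_, b3, c1, c2, ?_, ?_⟩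
  · rintro g (rfl | rfl | rfl | rfl) <;> exact b1 _ (by simp)
  · rw [c1, c2, map_add, b1 _ (by simp), E.symm, hw, E.cast, E.cast, ipR]; ring
  · obtain ⟨g, g1, g2⟩ := hv.sat
    refine stCn Λ B l1 l2 V b ι v v e e1 f1 _ ξ x y L E hneg ⟨p3, q3⟩ hU.u2.ee r3 r3 (fun a => ?_)
      hU.u1.ee (by rw [hU.u1.ef]; exact one_ne_zero) ?_ b2 ?_ ?_ ?_ (by rwa [E.symm])
    · have : B (a + ((-1 - B a v) • (g - B g e • f) + (1 - B a e) • f)) v = -1 := by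
        simp [g2, hs f v, r4]
      refine ⟨(-1 - B a v) • (g - B g e • f) + (1 - B a e) • f,
        ⟨by simp [g1.1, p4], by simp [g1.2, q4]⟩, ?_, this, this⟩
      simp [hs f e, hU.u2.ef]
    · rintro g (rfl | rfl | rfl)
      exacts [⟨r1, r2⟩, ⟨r1, r2⟩, ⟨by rw [hs, hU.ee], by rw [hs, hU.fe]⟩]
    · have t1 : b (ι v) ((-s * B l2 v) • ι l1 + (s * B l1 v) • ι l2 + ξ) = 0 := by
        rw [map_add, b1 _ (by simp), E.symm, hw, E.cast, E.cast]; ring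
      rintro g (rfl | rfl | rfl)
      · exact t1
      · exact t1
      · rw [map_add, b1 _ (by simp), E.symm, hw, E.cast, E.cast, p3, q3]; simp
    · rw [c1]
      intro k
      have : ((2 * B l2 v + B l1 v : ℤ) : ℝ) ≠ 0 := by exact_mod_cast (node_dir hv.cop hv.big).1
      push_cast at this
      exact mul_ne_zero (neg_ne_zero.2 hs0) this k.1
    · rintro g (rfl | rfl | rfl | rfl | rfl) <;> exact b1 _ (by simp)

end Vale.Agent.P287T.Ch
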