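import Vale.Agent.P287T.Ch.Lo1

/-!
# The second neighbour and the rotation
-/

namespace Vale.Agent.P287T.Ch

open Set Filter Topology Module Vale.Agent.P287T.Sw

variable {Λ : Type} [AddCommGroup Λ] {B : Λ →+ Λ →+ ℤ} {l1 l2 : Λ} {V : Type}
  [NormedAddCommGroup V] [NormedSpace ℝ V] {b : V →ₗ[ℝ] V →ₗ[ℝ] ℝ} {ι : Λ →+ V}

theorem rho_apply (g x : Λ) :
    B g (rho B l1 l2 x) = B g x - B l2 x * B g l2 - (B l1 x + B l2 x) * B g l1 := by
  simp only [rho, map_sub, map_zsmul, smul_eq_mul]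

theorem Lat.rho1 (L : Lat B l1 l2) (x : Λ) : B l1 (rho B l1 l2 x) = -B l1 x - B l2 x := by
  rw [rho_apply, L.h11, L.h12]; ring

theorem Lat.rho2 (L : Lat B l1 l2) (x : Λ) : B l2 (rho B l1 l2 x) = B l1 x := by
  rw [rho_apply, L.h22, L.symm l2 l1, L.h12]; ring

theorem Lat.rho_pr (L : Lat B l1 l2) {g : Λ} (hg : Pr B l1 l2 g) (x : Λ) :
    B g (rho B l1 l2 x) = B g x := by
  rw [rho_apply, L.symm g l1, L.symm g l2, hg.1, hg.2]; ring

theorem Lat.rho_node (L : Lat B l1 l2) {v : Λ} (h : Node B l1 l2 v) :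
    Node B l1 l2 (rho B l1 l2 v) := by
  obtain ⟨f, f1, f2⟩ := h.sat
  refine ⟨?_, ?_, ⟨f, f1, by rw [L.rho_pr f1, f2]⟩, ?_⟩
  · rw [rho_apply, L.symm _ l1, L.symm _ l2, L.rho1, L.rho2, L.symm _ v, rho_apply, h.iso,
      L.symm v l1, L.symm v l2]
    ring
  · obtain ⟨A, C, e⟩ := h.cop
    rw [L.rho1, L.rho2]
    exact ⟨-C, A - C, by linear_combination e⟩
  · have := h.big
    rw [L.rho1, L.rho2]
    unfold ip3 at this ⊢
    linarith

theorem Lat.rho_kap (L : Lat B l1 l2) (u v : Λ) :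
    3 * B v (rho B l1 l2 u) - ip3 (B l1 v) (B l2 v) (B l1 (rho B l1 l2 u)) (B l2 (rho B l1 l2 u)) =
      3 * B v u - ip3 (B l1 v) (B l2 v) (B l1 u) (B l2 u) := by
  rw [L.rho1, L.rho2, rho_apply, L.symm v l1, L.symm v l2]
  unfold ip3
  ring

theorem hd_rho {x y : V} (h1 : Hd b x y (ι l1)) (h2 : Hd b x y (ι l2)) (u : Λ) :
    Hd b x y (ι (rho B l1 l2 u)) ↔ Hd b x y (ι u) := by
  simp only [Hd, rho, map_sub, iota_zsmul, map_smul, LinearMap.sub_apply, LinearMap.smul_apply,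
    h1.1, h1.2, h2.1, h2.2, smul_zero, sub_zero]

/-- The component orthogonal to `A2`. -/
theorem ex_kap (L : Lat B l1 l2) (E : Emb B b ι) (u : Λ) : ∃ k : V, ∀ z,
    3 * b k z = 3 * b (ι u) z - ipR (B l1 u) (B l2 u) (b (ι l1) z) (b (ι l2) z) :=
  ⟨ι u - ((2 * B l1 u + B l2 u) / 3 : ℝ) • ι l1 - ((B l1 u + 2 * B l2 u) / 3 : ℝ) • ι l2,
    fun z => by
      have := L.symm
      have := E.symm
      simp only [map_sub, map_smul, LinearMap.sub_apply, LinearMap.smul_apply, smul_eq_mul, ipR]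
      ring⟩

variable [FiniteDimensional ℝ V]

theorem stepC (L : Lat B l1 l2) (E : Emb B b ι) {u v g : Λ} (hv : Node B l1 l2 v)
    {x y : V} {s : ℝ} (hs0 : s ≠ 0)
    (hneg : ∀ z, b (ι l1) z = 0 → b (ι l2) z = 0 → Hd b x y z → z ≠ 0 → b z z < 0)
    (k1 : Hd b x y (ι l1)) (k2 : Hd b x y (ι l2)) (ku : Hd b x y (ι u)) (kv : Hd b x y (ι v))
    (huu : B u u = 0) (hg : Pr B l1 l2 g) (gu : B g u = 1) (gv : B g v = 0)
    (hc0 : ip3 (B l1 v) (B l2 v) (B l1 u) (B l2 u) ≤ 0)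
    (hc : ip3 (B l1 u) (B l2 u) (B l1 u) (B l2 u) * ip3 (B l1 v) (B l2 v) (B l1 v) (B l2 v) ≤
      4 * ip3 (B l1 v) (B l2 v) (B l1 u) (B l2 u) ^ 2)
    (hM : 4 * (3 * B v u - ip3 (B l1 v) (B l2 v) (B l1 u) (B l2 u)) ^ 2 <
      ip3 (B l1 u) (B l2 u) (B l1 u) (B l2 u) * ip3 (B l1 v) (B l2 v) (B l1 v) (B l2 v)) :
    ∃ e l ξ, Pr B l1 l2 e ∧ B u e = 0 ∧ B v e = 0 ∧ Hd b x y l ∧
      (∀ g ∈ ({l1, l2, u, v} : Set Λ), b (ι g) ξ = 0) ∧ b l ξ ≠ 0 ∧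
      b (ι l1) l = s * (2 * B l2 v + B l1 v) ∧ b (ι l2) l = -s * (B l2 v + 2 * B l1 v) ∧
      Appr ι (Nb B l1 l2 u v e) l := by
  have hs := L.symm
  have hn : B v u ≠ 0 := by
    intro h
    rw [h] at hM
    nlinarith
  obtain ⟨e1, f1, e2, f2, hU, hG⟩ := L.uu v hv.iso hv.cop
  obtain ⟨e1, f1, e, f, hU, a1, a2, hG'⟩ := smith hs hU u
  obtain ⟨p1, p2, p3, p4⟩ := hG' l1 (hG l1 (by simp))
  obtain ⟨q1, q2, q3, q4⟩ := hG' l2 (hG l2 (by simp))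
  obtain ⟨r1, r2, r3, r4⟩ := hG' v (hG v (by simp))
  obtain ⟨κu, hu⟩ := ex_kap L E u
  obtain ⟨κv, hκ⟩ := ex_kap L E v
  have hb : (14 : ℝ) ≤ ipR (B l1 v) (B l2 v) (B l1 v) (B l2 v) := by
    rw [← ip3_cast]; exact_mod_cast hv.big
  have hc' : ipR (B l1 u) (B l2 u) (B l1 u) (B l2 u) * ipR (B l1 v) (B l2 v) (B l1 v) (B l2 v) ≤
      4 * ipR (B l1 v) (B l2 v) (B l1 u) (B l2 u) ^ 2 := by
    simp only [← ip3_cast]; exact_mod_cast hc
  have hM' : 4 * (3 * B v u - ipR (B l1 v) (B l2 v) (B l1 u) (B l2 u)) ^ 2 <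
      ipR (B l1 u) (B l2 u) (B l1 u) (B l2 u) * ipR (B l1 v) (B l2 v) (B l1 v) (B l2 v) := by
    simp only [← ip3_cast]; exact_mod_cast hM
  obtain ⟨N, hN⟩ : ∃ N, N = ipR (B l1 u) (B l2 u) (B l1 u) (B l2 u) := ⟨_, rfl⟩
  obtain ⟨N', hN'⟩ : ∃ N, N = ipR (B l1 v) (B l2 v) (B l1 v) (B l2 v) := ⟨_, rfl⟩
  obtain ⟨c, hcc⟩ : ∃ N, N = ipR (B l1 v) (B l2 v) (B l1 u) (B l2 u) := ⟨_, rfl⟩
  obtain ⟨M, hMM⟩ : ∃ M : ℝ, M = 3 * B v u - c := ⟨_, rfl⟩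
  obtain ⟨δ, hδ⟩ : ∃ δ : ℝ, δ = (B l2 v : ℝ) * B l1 u - B l1 v * B l2 u := ⟨_, rfl⟩
  rw [← hN, ← hN', ← hcc] at hc' hM'
  rw [← hMM] at hM'
  rw [← hN'] at hb
  have hd : 3 * δ ^ 2 = N * N' - c ^ 2 := by rw [hδ, hN, hN', hcc]; unfold ipR; ring
  have hΔ : 3 * δ ^ 2 < N * N' - M ^ 2 := by nlinarith
  have hΔ0 : 0 < N * N' - M ^ 2 := lt_of_le_of_lt (by positivity) hΔ
  obtain ⟨τ, hτ⟩ : ∃ τ : ℝ, τ * (N * N' - M ^ 2) = s * δ :=
    ⟨s * δ / (N * N' - M ^ 2), div_mul_cancel₀ _ hΔ0.ne'⟩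
  obtain ⟨w, hw⟩ : ∃ w : V, ∀ z, b w z = s * B l2 v * b (ι l1) z - s * B l1 v * b (ι l2) z +
      τ * N' * (3 * b (ι u) z - ipR (B l1 u) (B l2 u) (b (ι l1) z) (b (ι l2) z)) +
      τ * M * (3 * b (ι v) z - ipR (B l1 v) (B l2 v) (b (ι l1) z) (b (ι l2) z)) :=
    ⟨(s * B l2 v) • ι l1 - (s * B l1 v) • ι l2 + (3 * τ * N') • κu + (3 * τ * M) • κv, fun z => by
      rw [← hu, ← hκ]
      simp only [map_add, map_sub, map_smul, LinearMap.add_apply, LinearMap.sub_apply,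
        LinearMap.smul_apply, smul_eq_mul]
      ring⟩
  have w1 : b (ι l1) w = s * (2 * B l2 v + B l1 v) := by
    rw [E.symm, hw]
    simp only [E.cast, L.h11, hs l2 l1, L.h12, hs u l1, hs v l1, ipR]
    push_cast; ring
  have w2 : b (ι l2) w = -s * (B l2 v + 2 * B l1 v) := by
    rw [E.symm, hw]
    simp only [E.cast, L.h22, L.h12, hs u l2, hs v l2, ipR]
    push_cast; ring
  have wu : b (ι u) w = 0 := by
    rw [E.symm, hw]
    simp only [E.cast, huu]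
    rw [← hN, ← hcc, ← hMM]
    push_cast
    linear_combination -hτ - s * hδ
  have wv : b (ι v) w = 0 := by
    rw [E.symm, hw]
    simp only [E.cast, hv.iso, hs u v]
    rw [← hN', show ipR (B l1 u) (B l2 u) (B l1 v) (B l2 v) = c by rw [hcc]; unfold ipR; ring,
      ← hMM]
    push_cast
    ring
  have we : b (ι e) w = 0 := by
    rw [E.symm, hw]
    simp [E.cast, p3, q3, a1, r3, ipR]
  have ww : 0 < b w w := by
    have e1 : b w w = s ^ 2 * N' - 3 * τ * N' * (s * δ) := by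
      rw [hw, w1, w2, wu, wv, hδ, hN']; unfold ipR; ring
    have e2 : b w w * (N * N' - M ^ 2) = s ^ 2 * N' * (N * N' - M ^ 2 - 3 * δ ^ 2) := by
      rw [e1]; linear_combination (-3 * N' * (s * δ)) * hτ
    have e3 : 0 < s ^ 2 * N' * (N * N' - M ^ 2 - 3 * δ ^ 2) :=
      mul_pos (mul_pos (by positivity) (by linarith)) (by linarith)
    rw [← e2] at e3
    exact (mul_pos_iff_of_pos_right hΔ0).1 e3
  obtain ⟨ξ, b1, b2, b3⟩ := dirn E hneg [ι u, ι v, ι e] (by simp) ww (fun ξ h => by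
    rw [hw, h (ι l1) (by simp), h (ι l2) (by simp), h (ι u) (by simp), h (ι v) (by simp)]
    simp [ipR])
  have c1 : b (ι l1) (w + ξ) = s * (2 * B l2 v + B l1 v) := by
    rw [map_add, w1, b1 _ (by simp), add_zero]
  refine ⟨e, w + ξ, ξ, ⟨p3, q3⟩, a1, r3, ⟨?_, ?_⟩, ?_, b3, c1,
    by rw [map_add, w2, b1 _ (by simp), add_zero], ?_⟩
  · rw [map_add, LinearMap.add_apply, hw, k1.1, k2.1, ku.1, kv.1, E.symm ξ, b1 _ (by simp)]
    simp [ipR]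
  · rw [map_add, LinearMap.add_apply, hw, k1.2, k2.2, ku.2, kv.2, E.symm ξ, b1 _ (by simp)]
    simp [ipR]
  · rintro g (rfl | rfl | rfl | rfl) <;> exact b1 _ (by simp)
  · obtain ⟨g', g1, g2⟩ := hv.sat
    refine stCn Λ B l1 l2 V b ι u v e (B u e1 • v - B v u • e1) (B v u • f1 - B u f1 • v) _ ξ x y
      L E hneg ⟨p3, q3⟩ hU.u2.ee a1 r3 (fun a => ?_) ?_ ?_ ?_ b2 ?_ ?_ ?_ (by rwa [E.symm])
    · obtain ⟨k, h1, h2, h3⟩ : ∃ k, Pr B l1 l2 k ∧ B (a + k) u = -1 ∧ B (a + k) v = -1 :=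
        ⟨(-1 - B a v) • (g' - B g' u • g) + (-1 - B a u) • g,
          ⟨by simp [g1.1, hg.1], by simp [g1.2, hg.2]⟩, by simp [gu], by simp [gv, g2]⟩
      refine ⟨k + (1 - B (a + k) e) • f, ⟨by simp [h1.1, p4], by simp [h1.2, q4]⟩, ?_, ?_, ?_⟩
      · rw [← add_assoc, map_add, map_zsmul, AddMonoidHom.add_apply, AddMonoidHom.smul_apply,
          hs f e, hU.u2.ef]
        simp
      · rw [← add_assoc, map_add, map_zsmul, AddMonoidHom.add_apply, AddMonoidHom.smul_apply,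
          hs f u, a2, h2]
        simp
      · rw [← add_assoc, map_add, map_zsmul, AddMonoidHom.add_apply, AddMonoidHom.smul_apply,
          hs f v, r4, h3]
        simp
    · simp [hv.iso, r1, hs e1 v, hU.u1.ee]
    · simpa [hv.iso, r2, hs e1 v, r1, hU.u1.ef] using hn
    · rintro g (rfl | rfl | rfl)
      · constructor <;> simp [hs g v, mul_comm]
      · constructor <;> simp [hv.iso, r1, r2]
      · constructor <;> simp [hs g v, r3, hs g e1, hs g f1, hU.ee, hU.fe]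
    · rintro g (rfl | rfl | rfl)
      · rw [map_add, wu, b1 _ (by simp), add_zero]
      · rw [map_add, wv, b1 _ (by simp), add_zero]
      · rw [map_add, we, b1 _ (by simp), add_zero]
    · rw [c1]
      intro k
      have : ((2 * B l2 v + B l1 v : ℤ) : ℝ) ≠ 0 := by exact_mod_cast (node_dir hv.cop hv.big).1
      push_cast at this
      exact mul_ne_zero hs0 this k.1
    · rintro g (rfl | rfl | rfl | rfl | rfl) <;> exact b1 _ (by simp)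

end Vale.Agent.P287T.Ch
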