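import Vale.Agent.P287T.Ch.Sm
import Vale.Agent.P287Q.Lat.Iso
import Vale.Agent.P287Q.Lat.Hf

/-!
# Hyperbolic planes in an even unimodular lattice of signature `(4, 20)`
-/

namespace Vale.Agent.P287T.Ch

open Module Vale.Agent.P287Q

variable {Λ : Type} [AddCommGroup Λ] [Module.Free ℤ Λ] [Module.Finite ℤ Λ]
  {B : LinearMap.BilinForm ℤ Λ}

omit [Module.Free ℤ Λ] [Module.Finite ℤ Λ] in
/-- A nonzero vector of a unimodular lattice is a multiple of a vector with a partner. -/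
theorem uu_prim (hu : Function.Bijective B) {x : Λ} (h0 : x ≠ 0) :
    ∃ (g : ℤ) (y z : Λ), g ≠ 0 ∧ x = g • y ∧ B y z = 1 := by
  obtain ⟨g, hg⟩ := (IsPrincipalIdealRing.principal (LinearMap.range (B x))).principal
  have hd : ∀ y, g ∣ B x y := fun y => by
    have : B x y ∈ LinearMap.range (B x) := ⟨y, rfl⟩
    rw [hg] at this
    exact Ideal.mem_span_singleton.1 this
  have g0 : g ≠ 0 := by
    rintro rfl
    exact h0 (hu.1 (by rw [map_zero]; exact LinearMap.ext fun y => zero_dvd_iff.1 (hd y)))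
  obtain ⟨z, hz⟩ : g ∈ LinearMap.range (B x) := by
    rw [hg]; exact Submodule.mem_span_singleton_self g
  let φ : Λ →ₗ[ℤ] ℤ :=
    { toFun := fun y => B x y / g
      map_add' := fun a b => by rw [map_add, Int.add_ediv_of_dvd_left (hd a)]
      map_smul' := fun c a => by
        rw [map_smul, smul_eq_mul, Int.mul_ediv_assoc _ (hd a)]; rfl }
  obtain ⟨y, hy⟩ := hu.2 φ
  refine ⟨g, y, z, g0, hu.1 (LinearMap.ext fun w => ?_), ?_⟩
  · rw [map_smul, hy, LinearMap.smul_apply, smul_eq_mul]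
    exact (Int.mul_ediv_cancel' (hd w)).symm
  · rw [hy]
    change B x z / g = 1
    rw [hz, Int.ediv_self g0]

/-- One more hyperbolic plane. -/
theorem uu_step (hs : ∀ x y, B x y = B y x) (he : ∀ x, Even (B x x)) (hu : Function.Bijective B)
    {I : Submodule ℤ Λ} (hI : ∀ x ∈ I, ∀ y ∈ I, B x y = 0) {k : ℕ} (hk : k < finrank ℤ I)
    (e f : Fin k → Λ) (hee : ∀ i j, B (e i) (e j) = 0) (hff : ∀ i j, B (f i) (f j) = 0)
    (hef : ∀ i j, B (e i) (f j) = if i = j then 1 else 0) :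
    ∃ x y, B x x = 0 ∧ B y y = 0 ∧ B x y = 1 ∧
      ∀ i, B (e i) x = 0 ∧ B (e i) y = 0 ∧ B (f i) x = 0 ∧ B (f i) y = 0 := by
  let ψ : Λ →ₗ[ℤ] (Fin k → ℤ) := LinearMap.pi fun i => B (e i)
  have hr : finrank ℤ Λ < finrank ℤ I + finrank ℤ (LinearMap.ker ψ) := by
    have h1 := (LinearMap.ker ψ).finrank_quotient_add_finrank
    rw [ψ.quotKerEquivRange.finrank_eq] at h1
    have h2 : finrank ℤ (LinearMap.range ψ) ≤ finrank ℤ (Fin k → ℤ) := Submodule.finrank_le _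
    rw [Module.finrank_fintype_fun_eq_card, Fintype.card_fin] at h2
    omega
  obtain ⟨d, d', hd, hdd⟩ := Lat.hl_zero B hs hu I hI (LinearMap.ker ψ).subtype
    (Submodule.injective_subtype _) hr
  let π : Λ → Λ := fun x => x - ∑ i, B (f i) x • e i - ∑ i, B (e i) x • f i
  have hπ : ∀ g x, B g (π x) =
      B g x - ∑ i, B (f i) x * B g (e i) - ∑ i, B (e i) x * B g (f i) := fun g x => by
    simp only [π, map_sub, map_sum, map_smul, smul_eq_mul]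
  have hfe : ∀ i j, B (f i) (e j) = if i = j then 1 else 0 := fun i j => by
    rw [hs, hef]; simp only [eq_comm]
  have πe : ∀ i x, B (e i) (π x) = 0 := fun i x => by simp [hπ, hee, hef]
  have πf : ∀ i x, B (f i) (π x) = 0 := fun i x => by simp [hπ, hff, hfe]
  have πo : ∀ g x, (∀ i, B (e i) g = 0) → (∀ i, B (f i) g = 0) → B g (π x) = B g x :=
    fun g x h1 h2 => by simp [hπ, hs g (e _), hs g (f _), h1, h2]
  have de : ∀ i, B (e i) d.1 = 0 := fun i => congrFun d.2 i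
  have de' : ∀ i, B (e i) d'.1 = 0 := fun i => congrFun d'.2 i
  have h0 : π d.1 ≠ 0 := fun h => hdd (by
    have := hπ d'.1 d.1
    rw [h, map_zero] at this
    simp only [hs d'.1 (e _), de, de', mul_zero, zero_mul, Finset.sum_const_zero, sub_zero] at this
    rw [hs]; exact this.symm)
  have hi : B (π d.1) (π d.1) = 0 := by
    rw [πo _ _ (fun i => πe i _) (fun i => πf i _), hs, hπ, hI d.1 hd d.1 hd]
    simp [hs d.1 (e _), de]
  obtain ⟨g, x, z, g0, hx, hz⟩ := uu_prim hu h0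
  have xe : ∀ i, B (e i) x = 0 := fun i => by
    have := πe i d.1
    rw [hx, map_smul, smul_eq_mul] at this
    exact (mul_eq_zero.1 this).resolve_left g0
  have xf : ∀ i, B (f i) x = 0 := fun i => by
    have := πf i d.1
    rw [hx, map_smul, smul_eq_mul] at this
    exact (mul_eq_zero.1 this).resolve_left g0
  have xx : B x x = 0 := by
    rw [hx] at hi
    simpa [g0] using hi
  have xz : B x (π z) = 1 := (πo x z xe xf).trans hz
  obtain ⟨q, hq⟩ := he (π z)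
  refine ⟨x, π z - q • x, xx, ?_, ?_, fun i => ⟨xe i, ?_, xf i, ?_⟩⟩
  · simp only [map_sub, map_smul, LinearMap.sub_apply, LinearMap.smul_apply, smul_eq_mul, hq, xx,
      xz, hs (π z) x]
    ring
  · simp [xz, xx]
  · simp [πe, xe]
  · simp [πf, xf]

/-- **An even unimodular lattice with an isotropic sublattice of rank four has many hyperbolic
planes.** -/
theorem lat_of_iso {B' : Λ →+ Λ →+ ℤ} (hB : ∀ x y, B' x y = B x y) (hs : ∀ x y, B x y = B y x)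
    (he : ∀ x, Even (B x x)) (hu : Function.Bijective B) {I : Submodule ℤ Λ}
    (hI : ∀ x ∈ I, ∀ y ∈ I, B x y = 0) (h4 : 4 ≤ finrank ℤ I) {l1 l2 : Λ} (h11 : B l1 l1 = 2)
    (h22 : B l2 l2 = 2) (h12 : B l1 l2 = -1) : Lat B' l1 l2 := by
  have hs' : ∀ x y, B' x y = B' y x := fun x y => by rw [hB, hB, hs]
  refine ⟨hs', fun x => hB x x ▸ he x, (hB _ _).trans h11, (hB _ _).trans h22,
    (hB _ _).trans h12, fun x hx => hu.1 ?_, fun v hv hc => ?_⟩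
  · rw [map_zero]; exact LinearMap.ext fun y => (hB x y).symm.trans (hx y)
  rw [hB] at hv
  rw [hB, hB] at hc
  obtain ⟨a, c, hac⟩ := hc
  obtain ⟨q, hq⟩ := he (a • l1 + c • l2)
  have wv : B v (a • l1 + c • l2) = 1 := by
    rw [map_add, map_smul, map_smul, hs v, hs v]; exact hac
  obtain ⟨w, hw⟩ : ∃ w, w = a • l1 + c • l2 - q • v := ⟨_, rfl⟩
  have vw : B v w = 1 := by rw [hw, map_sub, wv, map_smul, hv]; simp
  have ww : B w w = 0 := by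
    rw [hw]
    generalize a • l1 + c • l2 = w0 at hq wv
    simp only [map_sub, map_smul, LinearMap.sub_apply, LinearMap.smul_apply, smul_eq_mul, hq, hv,
      wv, hs w0 v]
    ring
  have hw' : ∀ z, B' w z = a * B' l1 z + c * B' l2 z - q * B' v z := fun z => by
    simp [hw, hB]
  clear hw hq wv
  obtain ⟨x1, y1, a1, a2, a3, a4⟩ := uu_step hs he hu hI (k := 1) (by omega) ![v] ![w]
    (by simpa using hv) (by simpa using ww) (by simpa using vw)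
  obtain ⟨a5, a6, a7, a8⟩ : B v x1 = 0 ∧ B v y1 = 0 ∧ B w x1 = 0 ∧ B w y1 = 0 := a4 0
  obtain ⟨x2, y2, b1, b2, b3, b4⟩ := uu_step hs he hu hI (k := 2) (by omega) ![v, x1] ![w, y1]
    (by simp [Fin.forall_fin_succ, hs x1 v, hv, a1, a5])
    (by simp [Fin.forall_fin_succ, hs y1 w, ww, a2, a8])
    (by simp [Fin.forall_fin_succ, hs x1 w, vw, a3, a6, a7])
  obtain ⟨b5, b6, b7, b8⟩ : B v x2 = 0 ∧ B v y2 = 0 ∧ B w x2 = 0 ∧ B w y2 = 0 := b4 0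
  obtain ⟨b9, b10, b11, b12⟩ : B x1 x2 = 0 ∧ B x1 y2 = 0 ∧ B y1 x2 = 0 ∧ B y1 y2 = 0 := b4 1
  obtain ⟨x3, y3, c1, c2, c3, c4⟩ := uu_step hs he hu hI (k := 3) (by omega) ![v, x1, x2]
    ![w, y1, y2]
    (by simp [Fin.forall_fin_succ, hs x1 v, hs x2 v, hs x2 x1, hv, a1, a5, b1, b5, b9])
    (by simp [Fin.forall_fin_succ, hs y1 w, hs y2 w, hs y2 y1, ww, a2, a8, b2, b8, b12])
    (by simp [Fin.forall_fin_succ, hs x1 w, hs x2 w, hs x2 y1, vw, a3, a6, a7, b3, b6, b7, b10,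
      b11])
  obtain ⟨c5, c6, c7, c8⟩ : B v x3 = 0 ∧ B v y3 = 0 ∧ B w x3 = 0 ∧ B w y3 = 0 := c4 0
  obtain ⟨c9, c10, c11, c12⟩ : B x1 x3 = 0 ∧ B x1 y3 = 0 ∧ B y1 x3 = 0 ∧ B y1 y3 = 0 := c4 1
  obtain ⟨c13, c14, c15, c16⟩ : B x2 x3 = 0 ∧ B x2 y3 = 0 ∧ B y2 x3 = 0 ∧ B y2 y3 = 0 := c4 2
  simp only [← hB] at a1 a2 a3 a5 a6 a7 a8 b1 b2 b3 b5 b6 b7 b8 b9 b10 b11 b12
  simp only [← hB] at c1 c2 c3 c5 c6 c7 c8 c9 c10 c11 c12 c13 c14 c15 c16
  set m := B l2 v • l1 - B l1 v • l2 with hm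
  obtain ⟨p1, q1, p2, q2, d1, d2, d3, d4⟩ :=
    smith hs' (UU.mk ⟨a1, a2, a3⟩ ⟨b1, b2, b3⟩ b9 b10 b11 b12) m
  obtain ⟨e1, e2, e3, e4⟩ := d4 v ⟨a5, a6, b5, b6⟩
  obtain ⟨e5, e6, e7, e8⟩ := d4 w ⟨a7, a8, b7, b8⟩
  obtain ⟨e9, e10, e11, e12⟩ := d4 x3 ⟨hs' _ _ ▸ c9, hs' _ _ ▸ c11, hs' _ _ ▸ c13, hs' _ _ ▸ c15⟩
  obtain ⟨e13, e14, e15, e16⟩ := d4 y3 ⟨hs' _ _ ▸ c10, hs' _ _ ▸ c12, hs' _ _ ▸ c14, hs' _ _ ▸ c16⟩
  obtain ⟨r1, s1, r2, s2, f1, f2, f3, f4⟩ := smith hs' (UU.mk d1.u1 ⟨c1, c2, c3⟩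
    (hs' _ _ ▸ e9) (hs' _ _ ▸ e13) (hs' _ _ ▸ e10) (hs' _ _ ▸ e14)) m
  obtain ⟨-, -, g1, g2⟩ := f4 v ⟨e1, e2, c5, c6⟩
  obtain ⟨-, -, g3, g4⟩ := f4 w ⟨e5, e6, c7, c8⟩
  obtain ⟨-, -, g5, g6⟩ := f4 p2 ⟨hs' _ _ ▸ d1.ee, hs' _ _ ▸ d1.fe, hs' _ _ ▸ e11, hs' _ _ ▸ e15⟩
  obtain ⟨-, -, g7, g8⟩ := f4 q2 ⟨hs' _ _ ▸ d1.ef, hs' _ _ ▸ d1.ff, hs' _ _ ▸ e12, hs' _ _ ▸ e16⟩
  have key : ∀ z, B' v z = 0 → B' w z = 0 → B' m z = 0 → B' l1 z = 0 ∧ B' l2 z = 0 := by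
    intro z z1 z2 z3
    rw [hw', z1] at z2
    simp only [hm, map_sub, map_zsmul, AddMonoidHom.sub_apply, AddMonoidHom.smul_apply,
      smul_eq_mul] at z3
    exact ⟨by linear_combination (-B' l1 z) * hac + B l1 v * z2 + c * z3,
      by linear_combination (-B' l2 z) * hac + B l2 v * z2 - a * z3⟩
  refine ⟨p2, q2, r2, s2, ⟨d1.u2, f1.u2, g5, g6, g7, g8⟩, ?_⟩
  have k1 := key p2 e3 e7 d2
  have k2 := key q2 e4 e8 d3
  have k3 := key r2 g1 g3 f2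
  have k4 := key s2 g2 g4 f3
  rintro g (rfl | rfl | rfl)
  exacts [⟨k1.1, k2.1, k3.1, k4.1⟩, ⟨k1.2, k2.2, k3.2, k4.2⟩, ⟨e3, e4, g1, g2⟩]

/-- **An even unimodular lattice of signature `(4, 20)` has many hyperbolic planes.** -/
theorem lat_of {B' : Λ →+ Λ →+ ℤ} (hB : ∀ x y, B' x y = B x y) (hs : ∀ x y, B x y = B y x)
    (he : ∀ x, Even (B x x)) (hu : Function.Bijective B) (hsig : Lat.Sig B 4 20) {l1 l2 : Λ}
    (h11 : B l1 l1 = 2) (h22 : B l2 l2 = 2) (h12 : B l1 l2 = -1) : Lat B' l1 l2 := by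
  obtain ⟨h0, P, N, hP, hN, hp, hn⟩ := hsig
  have hu' : Function.Bijective (-B : LinearMap.BilinForm ℤ Λ) :=
    (Equiv.neg (Λ →ₗ[ℤ] ℤ)).bijective.comp hu
  obtain ⟨I, -, hI, h4⟩ := Lat.exists_iso (-B) (fun x y => by simp [hs x y]) hu' (p := 20) (q := 4)
    ⟨h0, N, P, hN, hP, fun x hx k => by simpa using hn x hx k,
      fun x hx k => by simpa using hp x hx k⟩ (by norm_num)
  exact lat_of_iso hB hs he hu (fun x hx y hy => by simpa using hI x hx y hy) h4 h11 h22 h12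

end Vale.Agent.P287T.Ch
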